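import Vale.Agent.P283B.Spec
import Vale.Agent.P287D.Ku.St

/-!
# P283B, block LC: the global case (statements of the leaves)
-/

set_option linter.unusedVariables false

open Set

noncomputable section

namespace Vale.Agent.P283B.Lg

open P287D

/-- **RAISE**: finitely many places of small log discrepancy become lc places -/
def RAISE (n : ℕ) : Prop := ∀ q : ℕ, 0 < q → ∃ δ : ℝ, 0 < δ ∧ ForN n fun K _ _ =>
  ∀ (Λ Γ : BD K) (T : Set (Pl K)), Rel n Λ ∅ Γ → ELc n 0 Γ All → Cf n Λ Γ (Phi q) All →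
    T.Finite → (∀ P ∈ T, ld (n + 1) Γ P ≤ δ) →
    ∃ Λ' Γ', Rel n Λ' ∅ Γ' ∧ ELc n 0 Γ' All ∧ Γ ≤ Γ' ∧ (∀ P ∈ T, ld (n + 1) Γ' P = 0) ∧
      ∀ P, On n Λ' P → P ∈ T ∨ (On n Λ P ∧ Γ' P = Γ P)

/-- **LCN**: some real complement is not lc -/
def LCN (n : ℕ) : Prop := ∀ q : ℕ, 0 < q → ∃ N : ℕ, 0 < N ∧ ForN n fun K _ _ =>
  ∀ Λ Γ G : BD K, Rel n Λ ∅ Γ → ELc n 0 Γ All → Cf n Λ Γ (Frq q) All → Rep (-Γ) G →
    ¬ ELc n 0 (Γ + G) All → ∃ g, LcC n N Γ All g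

/-- **WPN**: weak positivity and negativity for the moduli part -/
def WPN : Prop := ∀ k : ℕ, ForS fun n K _ _ =>
  ∀ (L : IntermediateField ℂ K) (Γ : BD K) (Λ D β : BD L), FF L (k + 1) → Cld L →
    Nef (pb (inc L) D - Γ) → Big (pb (inc L) D - Γ) → Klt (n + 1) Γ →
    (∀ f, (∀ P, Hor L P → Aj (n + 1) Γ P f) → f ∈ L) → Smp Λ → Big Λ → Dsc Λ D → Dsc Λ β →
    (∀ u, On k Λ u → ∃ v, Lies (inc L) v u ∧
      ld (n + 1) Γ v ≤ v.ord (inc L u.t) * ld (k + 1) β u) →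
    Psef (D - β) ∧ ∀ (u : Pl L) (t : ℝ),
      (∀ v, Lies (inc L) v u → t * v.ord (inc L u.t) ≤ ld (n + 1) Γ v) → t ≤ ld (k + 1) β u

/-- **EBN**: effective birationality for nef and big polarisations -/
def EBN (n : ℕ) : Prop := ∀ (ε : ℝ) (q : ℕ), 0 < ε → 0 < q → ∃ m : ℕ, 0 < m ∧ ForN n fun K _ _ =>
  ∀ Λ Γ N : BD K, Pr n Λ Γ → ELc n ε Γ All → Cf n Λ Γ (Frq q) All → Dsc Λ N → Smp N → Big N →
    CarQ N → ZOn n Λ N → Psef (N - Γ) → Psef (N + Γ) → Bir ((m : ℝ) • N)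

/-- an `ε`-lc `ℚ`-factorial variety of Fano type with the canonical divisor `κ` -/
structure Tq {K : Type} [Field K] [Algebra ℂ K] (n : ℕ) (ε : ℝ) (Λ κ : BD K) : Prop where
  ft : FTo n Λ ∅
  qf : QF n Λ
  hull : Hull n Λ (cn K (n + 1)) κ
  elc : ELc n ε κ All

/-- **BASE**: the base of a Mori fibre space -/
def BASE (n : ℕ) : Prop := ∀ ε : ℝ, 0 < ε → ∃ δ : ℝ, 0 < δ ∧ ForN n fun K _ _ =>
  ∀ (Λ κ : BD K) (s : Finset K) (m : ℝ) (k : ℕ) (B : BD (fld (mx s))), Tq n ε Λ κ →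
    Dsc Λ (mx s) → ¬ Big (mx s) → AmpOn Λ (m • mx s - κ) →
    (∀ β, Dsc Λ β → ∃ a : ℝ, Dsc (mx s) (β - a • κ)) → FF (fld (mx s)) (k + 1) → Smp B → Big B →
    mx s - pb (inc _) B ∈ Prn K →
    (∃ κ', Tq k δ B κ') ∧ ∀ u, On k B u → ∃ v, On n Λ v ∧ Lies (inc _) v u ∧
      δ * v.ord (inc _ u.t) ≤ 1

/-- **NVT**: effective non-vanishing for semiample integral divisors -/
def NVT (n : ℕ) : Prop := ∀ ε : ℝ, 0 < ε → ∃ N : ℕ, 0 < N ∧ ForN n fun K _ _ =>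
  ∀ Λ κ D : BD K, Tq n ε Λ κ → Dsc Λ D → Smp D → ZOn n Λ D →
    ∃ g, g ≠ 0 ∧ 0 ≤ dv g + (N : ℝ) • D

/-- the base from `MS` -/
def SBASE : Prop := WPN → FTM0 → ∀ n, MS n → BASE n

/-- non-vanishing -/
def SNVT : Prop := FTM1 → ∀ n, Le EBN n → Le Ga.WV n → Le BASE n → NVT n

end Vale.Agent.P283B.Lg
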