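import Vale.Agent.P283B.LC.G0
import Vale.Agent.P287D.Va.Des
import Vale.Agent.P287D.Gs.Ful
import Vale.Agent.P287D.Pr.Lr

/-!
# P283B, block LC: the base of a Mori fibre space
-/

set_option linter.unusedVariables false

open Set

noncomputable section

namespace Vale.Agent.P283B.Lg

open P287D

variable {K : Type} [Field K] [Algebra ℂ K] {n k : ℕ} {L : IntermediateField ℂ K}
  {Λ Γ κ b : BD K} {B B' D β : BD L} {u : Pl L} {f : K}

theorem sepB : SEP := fun n K _ _ hK Λ Q R a b c =>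
  (Loq.sep_of balg Gm.ffs res' n K hK Λ Q R a b c).2

/-- a big divisor has a member through any place -/
theorem rep_pos (h : Big Λ) (P : Pl K) : ∃ G, Rep Λ G ∧ 0 < G P := by
  by_contra! c
  have := hor_of_rep h.eff fun G r => (c G r).antisymm (r.1 P)
  exact P297Z.Pl.ring_ne_top P.toPlace (eq_top_iff.2 fun f _ => this f (h.fld_eq ▸ trivial))

theorem exists_mul {T : Set (Pl K)} (hT : T.Finite) (Z : BD K) {G : BD K}
    (h : ∀ P ∈ T, 0 < G P) : ∃ c : ℝ, 0 ≤ c ∧ ∀ P ∈ T, Z P ≤ c * G P := by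
  obtain ⟨c, hc⟩ := (hT.image fun P => Z P / G P).bddAbove
  exact ⟨max c 0, le_max_right _ _, fun P hP =>
    (div_le_iff₀ (h P hP)).1 ((hc ⟨P, hP, rfl⟩).trans (le_max_left _ _))⟩

theorem fin_on (hK : FF K (n + 1)) (s : Smp Λ) (a : Big Λ) (h : b ∈ Car K) :
    {P | On n Λ P ∧ b P ≠ 0}.Finite :=
  Gs.isb_fin hK neg' s a ((Ba.mod.isb n K hK).1 b h)

theorem one_le_e {v : Pl K} (l : Lies (inc L) v u) : (1 : ℝ) ≤ v.ord (inc L u.t) := by
  exact_mod_cast l.e_pos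

/-- `V Λ → V B` is a contraction, `L` is the field of the base -/
structure Ct (n k : ℕ) (L : IntermediateField ℂ K) (Λ : BD K) (B : BD L) : Prop where
  hK : FF K (n + 1)
  hL : FF L (k + 1)
  cld : Cld L
  smp : Smp Λ
  big : Big Λ
  sB : Smp B
  bB : Big B
  des : Dsc Λ (pb (inc L) B)

namespace Ct

variable (h : Ct n k L Λ B)
include h

theorem ok : Ok (inc L) := h.hK.ok_sub L

theorem sH : Smp (pb (inc L) B) := h.ok.smp h.sB

theorem up (d : Dsc B β) : Dsc Λ (pb (inc L) β) := h.des.trans (h.ok.dsc d)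

/-- every prime divisor of the base is dominated by a prime divisor -/
theorem dom (o : On k B u) : ∃ v, On n Λ v ∧ Lies (inc L) v u := by
  obtain ⟨G, r, g⟩ := rep_pos h.bB u
  obtain ⟨w, l⟩ := Pb.up (φ := inc L) (fun _ => rfl) h.hK u
  obtain ⟨v, a, c, d⟩ := ((neg'.nn n K h.hK Λ (pb (inc L) G) h.smp h.big
    (h.up ((Dsc.refl h.sB).congr r.2)) fun P _ => pb_nonneg _ r.1 P).2 w).1
      (by rw [l.pb]; exact mul_pos (one_pos.trans_le (one_le_e l)) g)
  obtain e | ⟨u', e⟩ := h.ok v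
  · exact absurd (e.pb G) c.ne'
  · exact ⟨v, a, sepB k L h.hL B u u' h.sB h.bB o
      ((cle_pb_iff h.hK h.cld l e).1 (d.of_dsc h.des)) ▸ e⟩

/-- vertical divisors which descend are pull backs -/
theorem vd (d : Dsc (pb (inc L) B) b) (z : ∀ P, Hor L P → 0 ≤ b P) :
    ∃ β, Dsc B β ∧ b = pb (inc L) β := by
  obtain ⟨β, a, c⟩ := (dsc_pb_iff h.hK h.cld).1 d
  obtain ⟨γ, e, g⟩ := prn_down h.hK h.cld c fun P hP => by
    rw [Pi.sub_apply, hP.trv.pb, sub_zero]
    exact z P hP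
  exact ⟨β + γ, a.add_prn e, by rw [pb_add, ← g, add_sub_cancel]⟩

/-- the adjoint sections on the generic fibre are constant -/
theorem rk (d : Bdy n Λ Γ) (a : ∀ P, Hor L P → Aj (n + 1) Γ P f) : f ∈ L := by
  by_cases f0 : f = 0
  · exact f0 ▸ zero_mem L
  refine h.cld.mem_of_ord h.hK fun P hP => ?_
  have e := fld_pb h.hK h.cld h.bB
  have fT : {Q | (On n Λ Q ∧ dv f Q ≠ 0) ∧ ¬ Hor L Q}.Finite :=
    (fin_on h.hK h.smp h.big (dv_mem_Car f)).subset fun _ x => x.1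
  obtain ⟨G, r, g0, g⟩ := exists_rep_not_cle (P := P) fT h.sH fun Q hQ c => hQ.2 (e ▸
    hor_of_rep h.sH.eff fun G r => c.zero r (r.hor h.hK h.sH (e.symm ▸ hP)))
  obtain ⟨c, c0, hc⟩ := exists_mul fT (-dv f) g
  have k := Gs.det neg' h.hK h.smp h.big
    ((Dsc.dv h.smp f).add ((h.des.congr r.2).smul c)) (fun Q o => by
      have := mul_nonneg c0 (r.1 Q)
      simp only [Pi.add_apply, Pi.smul_apply, smul_eq_mul]
      by_cases x : dv f Q = 0
      · linarith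
      by_cases y : Hor L Q
      · have z : (-1 : ℝ) < Q.ord f := by linarith [(a Q y).resolve_left f0, d Q o]
        have z' : (0 : ℤ) ≤ Q.ord f := by have : (-1 : ℤ) < Q.ord f := (by exact_mod_cast z); omega
        exact add_nonneg (Int.cast_nonneg z') this
      · linarith [show -dv f Q ≤ _ from hc Q ⟨⟨o, x⟩, y⟩]) P
  simpa [g0, dv_apply] using k

/-- weak positivity and negativity over a model `V B'` on which the boundary is zero -/
theorem wp (w : WPN) (a : Nef (pb (inc L) D - Γ)) (c : Big (pb (inc L) D - Γ))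
    (t : Klt (n + 1) Γ) (d : Bdy n Λ Γ) (s : Smp B') (g : Big B') (x : Dsc B' D) (y : Dsc B' β)
    (e : ∀ u, On k B' u → On k B u ∧ β u = cn L (k + 1) u) :
    Psef (D - β) ∧ ∀ (u : Pl L) (t : ℝ),
      (∀ v, Lies (inc L) v u → t * v.ord (inc L u.t) ≤ ld (n + 1) Γ v) → t ≤ ld (k + 1) β u :=
  w k n K h.hK L Γ B' D β h.hL h.cld a c t (fun _ => h.rk d) s g x y fun u o => by
    obtain ⟨v, p, l⟩ := h.dom (e u o).1
    refine ⟨v, l, ?_⟩
    have := d v p
    simp only [ld, dsc, Pi.sub_apply, (e u o).2] at this ⊢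
    linarith [one_le_e l]

/-- the base of a fibration of relative Picard number one is `ℚ`-factorial -/
theorem qf (q : QF n Λ) (nb : ¬ Big (pb (inc L) B)) {m : ℝ} (a : Big (m • pb (inc L) B - κ))
    (r : ∀ b, Dsc Λ b → ∃ t : ℝ, Dsc (pb (inc L) B) (b - t • κ)) : QF k B := fun u o => by
  classical
  obtain ⟨G, g, g0⟩ := rep_pos h.bB u
  have e : u.δ ≤ (G u)⁻¹ • G := fun w => by
    by_cases x : w = u
    · simp [x, Pl.δ_self, g0.ne']
    · rw [Pl.δ_ne x]
      exact mul_nonneg (inv_pos.2 g0).le (g.1 w)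
  have dG := ((Dsc.refl h.sB).congr g.2).smul (G u)⁻¹
  have e1 := pb_mono (inc L) e
  have e0 := pb_nonneg (inc L) u.δ_nonneg
  obtain ⟨b, b1, b2⟩ := Gs.exists_hull neg' h.hK h.smp q (Z := pb (inc L) u.δ)
    ((fin_on h.hK h.smp h.big (h.up dG).car).subset fun P x =>
      ⟨x.1, (((e0 P).lt_of_ne' x.2).trans_le (e1 P)).ne'⟩)
  have p0 := Gs.det neg' h.hK h.smp h.big b1 fun P x => b2 P x ▸ e0 P
  have p1 := sub_nonneg.1 (Gs.det neg' h.hK h.smp h.big ((h.up dG).sub b1) fun P x =>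
    sub_nonneg.2 (b2 P x ▸ e1 P))
  obtain ⟨t, ht⟩ := r b b1
  obtain rfl : t = 0 := by_contra fun t0 => nb (Dsc.big
    ((((Dsc.refl h.sH).smul m).add (ht.smul t⁻¹)).add ((h.ok.dsc dG).smul |t⁻¹|))
    (a.mono fun P => by
      have x := mul_le_mul_of_nonneg_left (p1 P) (abs_nonneg t⁻¹)
      have y := mul_le_mul_of_nonneg_right (neg_le_abs t⁻¹) (p0 P)
      simp only [Pi.add_apply, Pi.sub_apply, Pi.smul_apply, smul_eq_mul, mul_sub,
        inv_mul_cancel_left₀ t0]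
      linarith))
  obtain ⟨β, d, rfl⟩ := h.vd (by simpa using ht) fun P _ => p0 P
  have z : ∀ w, On k B w → β w = u.δ w := fun w x => by
    obtain ⟨v, p, l⟩ := h.dom x
    have := b2 v p
    rw [l.pb, l.pb] at this
    exact mul_left_cancel₀ (one_pos.trans_le (one_le_e l)).ne' this
  refine ⟨β, Gs.carQ_of neg' h.hL h.sB h.bB d fun w x => ?_, d, z⟩
  by_cases y : w = u
  · exact ⟨1, by rw [z w x, y, Pl.δ_self, Rat.cast_one]⟩
  · exact ⟨0, by rw [z w x, Pl.δ_ne y, Rat.cast_zero]⟩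

theorem carQ (c : Hull k B (cn L (k + 1)) β) : CarQ β :=
  Gs.carQ_of neg' h.hL h.sB h.bB c.1 fun w x =>
    let ⟨z, e⟩ := (Ba.mod.isb k L h.hL).2.2 w
    ⟨z, by rw [c.2 w x, e, Rat.cast_intCast]⟩

/-- the base of a contraction of a `ℚ`-factorial variety of Fano type is of Fano type -/
theorem ft (w : WPN) (m : FTM0) (t : FTo n Λ ∅) (q : QF n Λ) (c : Hull k B (cn L (k + 1)) β) :
    FTo k B ∅ := by
  obtain ⟨Γ, x, t1, t2, t3, t4⟩ := t.ex
  rw [mx_empty, smul_zero, zero_sub] at t3 t4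
  have cΓ : Γ ∈ Car K := by simpa using neg_mem t3.car
  have b : Big (-β) := by
    obtain ⟨η, η0, G, g⟩ := t4.exists_eff h.sH.car
    obtain ⟨ε, ε0, e⟩ := Pr.klt_open h.hK cΓ
      (g.car (sub_mem t3.car (Submodule.smul_mem _ η h.sH.car))) t1
    have s0 : 0 < min ε (1 / 2) := by positivity
    have s1 : 0 < 1 - min ε (1 / 2) := by linarith [min_le_right ε (1 / 2)]
    have p : pb (inc L) (-(min ε (1 / 2) * η) • B) - (Γ + min ε (1 / 2) • G) -
        (1 - min ε (1 / 2)) • -Γ ∈ Prn K := by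
      convert (Prn K).smul_mem (-min ε (1 / 2)) g.2 using 1
      rw [pb_smul]
      module
    have := (h.wp w ((t3.smul s1.le).congr p) ((t4.smul s1).congr p)
      (e _ (by rw [abs_of_pos s0]; exact min_le_left _ _)) (fun P o => by
        rw [Pr.dsc_add_smul]
        linarith [t2 P o, mul_nonneg s0.le (g.1 P)]) h.sB h.bB ((Dsc.refl h.sB).smul _) c.1
      fun u o => ⟨o, c.2 u o⟩).1.add_big (h.bB.smul (mul_pos s0 η0))
    convert this using 1
    module
  obtain ⟨-, D, a, -, -, -, -, -, z⟩ := m n K h.hK Λ (pb (inc L) (-β)) ∅ 0 t q (h.up c.1.neg)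
    (h.ok.carQ (h.carQ c).neg) (by simpa using h.ok.psef b.psef)
  have z := (z a le_rfl).1
  rw [mx_empty, smul_zero, add_zero] at z
  have sD : Smp D := by simpa using z.smp
  obtain ⟨G, g⟩ := b.eff
  obtain ⟨D₀, s₀, e₀⟩ := smp_down h.hK sD
    ((fld_mono (sub_nonneg.1 z.nn)).trans (fld_pb_le h.hK h.cld _))
  obtain ⟨γ, e₁, e₂⟩ := prn_down h.hK h.cld e₀ fun P hP => by
    have := z.fix _ (h.ok.rep g) P
    simp only [Pi.sub_apply, hP.trv.pb] at this ⊢
    linarith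
  obtain rfl : D = pb (inc L) (D₀ + γ) := by rw [pb_add, ← e₂, add_sub_cancel]
  have s₁ := s₀.add_prn e₁
  have y : ZD (-β) (-β - (D₀ + γ)) := ⟨(pb_inc_nonneg h.hK).1 (pb_sub (inc L) _ _ ▸ z.nn),
    by simpa using s₁, fun G g => sub_nonneg.1 ((pb_inc_nonneg h.hK).1 (by
      rw [pb_sub, pb_sub]; exact sub_nonneg.2 (z.fix _ (h.ok.rep g))))⟩
  have b₁ := Gs.zd_big neg' h.hL y b
  have o₁ := fun R => Gs.on_zd neg' h.hL Ba.mod sepB (R := R) h.sB h.bB c.1.neg y b₁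
  rw [sub_sub_cancel] at b₁ o₁
  have k₁ := (h.wp w (D := 0) (by simpa [pb_zero] using t3) (by simpa [pb_zero] using t4) t1 t2
    s₁ b₁ (Dsc.zero s₁) (Dsc.refl s₁).neg fun u o => ⟨(o₁ u o).1, by
      have := (o₁ u o).2
      simp only [Pi.sub_apply, Pi.neg_apply, c.2 u (o₁ u o).1] at this ⊢
      linarith⟩).2
  refine ⟨h.sB, h.bB, mx_empty (K := L) ▸ Dsc.zero h.sB, -(D₀ + γ), 0, fun u => ?_, fun u o => ?_,
    by simpa only [zero_smul, zero_sub, neg_neg] using s₁.nef,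
    by simpa only [zero_smul, zero_sub, neg_neg] using b₁⟩
  · obtain ⟨ε, ε0, e⟩ := Pr.klt_open h.hK cΓ (dv_mem_Car (inc L u.t)) t1
    have := k₁ u ε fun v l => by
      have := e ε (abs_of_pos ε0).le v
      rw [Pr.dsc_add_smul, dv_apply] at this
      exact (show _ < dsc (n + 1) Γ v + 1 by linarith).le
    exact (show -1 < dsc (k + 1) _ u by linarith [show ε ≤ dsc (k + 1) _ u + 1 from this])
  · have := y.nn u
    simp only [dsc, Pi.sub_apply, Pi.neg_apply, Pi.zero_apply, c.2 u o] at this ⊢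
    linarith

end Ct

/-- **SBASE** -/
theorem sbase : SBASE := fun w m0 n ms ε ε0 => by
  obtain ⟨δ, δ0, ms⟩ := ms ε 1 ε0 one_pos
  refine ⟨δ, δ0, fun K _ _ hK Λ κ s m k B t d nb a r hL sB bB e => ?_⟩
  have e' : pb (inc _) B - mx s ∈ Prn K := by simpa using neg_mem e
  have h : Ct n k _ Λ B := ⟨hK, hL, cld_fld _, t.ft.smp, t.ft.big, sB, bB, d.congr e'⟩
  have z : ∀ P, On n Λ P → ld (n + 1) κ P = 1 := fun P o => by simp [ld, dsc, t.hull.2 P o]
  have bd : Bdy n Λ κ := fun P o => by simp [dsc, t.hull.2 P o]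
  have rel : Rel n Λ s κ := by
    obtain ⟨Γ, x, t1, t2, t3, t4⟩ := t.ft.ex
    rw [mx_empty, smul_zero] at t3 t4
    refine ⟨⟨h.smp, h.big, t.hull.1, Gs.carQ_of neg' hK h.smp h.big t.hull.1 fun P o => ?_, bd⟩,
      ⟨h.smp, h.big, d, Γ, 0, t1, t2, by rwa [zero_smul], by rwa [zero_smul]⟩, m, a.nef⟩
    obtain ⟨z, e⟩ := (Ba.mod.isb n K hK).2.2 P
    exact ⟨z, by rw [t.hull.2 P o, e, Rat.cast_intCast]⟩
  have ms := fun P Q l => ms K hK Λ κ s P Q rel l (fun R o _ => ⟨0, by simp [z R o]⟩)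
    fun R _ => t.elc R trivial
  have p : pb (inc _) (m • B) - κ - (m • mx s - κ) ∈ Prn K := by
    convert (Prn K).smul_mem m e' using 1
    rw [pb_smul]
    module
  have g := (a.big_iff.1 h.big).congr p
  have q := h.qf t.qf (fun x => nb (x.congr e)) (pb_smul (inc _) m B ▸ g) fun b x =>
    (r b x).imp fun _ y => y.congr_left e'
  obtain ⟨κ', c⟩ := Gs.exists_hull neg' hL sB q
    (Gs.isb_fin hL neg' sB bB (Ba.mod.isb k _ hL).2.1)
  refine ⟨⟨κ', h.ft w m0 t.ft t.qf c, q, c, fun u _ => (h.wp w (a.nef.congr p) g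
    (fun P => by linarith [show ε ≤ dsc (n + 1) κ P + 1 from t.elc P trivial]) bd sB bB
    ((Dsc.refl sB).smul m) c.1 fun u o => ⟨o, c.2 u o⟩).2 u δ fun v => ms v u⟩, fun u o => ?_⟩
  obtain ⟨v, x, l⟩ := h.dom o
  exact ⟨v, x, l, z v x ▸ ms v u l⟩

end Vale.Agent.P283B.Lg
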