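import Vale.Agent.P283B.LC.Lcs
import Vale.Agent.P283B.LC.G0
import Vale.Agent.P283B.ACC.Wv

/-!
# P283B, block LC: raising the places of small log discrepancy to lc places
-/

set_option linter.all false

open Set Filter Topology

noncomputable section

namespace Vale.Agent.P283B.Lcr

open P287D

variable {n : ℕ} {K : Type} [Field K] [Algebra ℂ K] {Λ Λ' H B Γ Γ₀ Θ G Z : BD K} {s₀ : Finset K}
  {T : Set (Pl K)} {P : Pl K} {q : ℕ} {δ c : ℝ}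

theorem small {ι : Type*} {T : Set ι} (hT : T.Finite) (b : ι → ℝ) {r a : ℝ} (r0 : 0 < r)
    (a0 : 0 < a) : ∃ x : ℝ, 0 < x ∧ x < r ∧ ∀ i ∈ T, x * b i < a := by
  obtain ⟨x, ⟨x1, x2⟩, x0⟩ := (((gt_mem_nhds r0 : ∀ᶠ t in 𝓝 (0 : ℝ), t < r).and
    (hT.eventually_all.2 fun i hi => (show Tendsto (fun t : ℝ => t * b i) (𝓝 0) (𝓝 0) by
      simpa using (continuous_mul_const (b i)).tendsto 0).eventually
        (gt_mem_nhds a0))).filter_mono nhdsWithin_le_nhds).and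
    (self_mem_nhdsWithin (s := Ioi (0 : ℝ))) |>.exists
  exact ⟨x, x0, x1, x2⟩

theorem nef_over (d : Dsc Λ H) (h : Nef (c • H - Γ)) : ∃ c' : ℝ, Nef (c' • Λ - Γ) := by
  obtain ⟨e, -, k⟩ := (d.smul c).neg.exists_add
  have := h.add (k e le_rfl).nef
  exact ⟨e, by rwa [show c • H - Γ + (-(c • H) + e • Λ) = e • Λ - Γ by abel] at this⟩

theorem ld_mix (Γ Γ₀ : BD K) (η : ℝ) (P : Pl K) : ld n ((1 - η) • Γ + η • Γ₀) P =
    (1 - η) * ld n Γ P + η * ld n Γ₀ P := by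
  simp only [ld, dsc, Pi.add_apply, Pi.sub_apply, Pi.smul_apply, smul_eq_mul]
  ring

theorem rep_vert (h : Eff B) (e : ¬ Hor (fld B) P) : ∃ G, Rep B G ∧ 0 < G P := by
  obtain ⟨f, hf, e⟩ : ∃ f ∈ fld B, f ∉ P.ring := by simpa [Hor] using e
  obtain ⟨ε, h0, G, x⟩ := (mem_fld h).1 hf
  have y := x.add ((Rep.refl (pld_nonneg f)).smul h0.le)
  rw [sub_add_cancel] at y
  exact ⟨_, y, add_pos_of_nonneg_of_pos (x.nonneg P) (mul_pos h0 (pld_pos.2 e))⟩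

/-- a klt datum of Fano type for which the given places can be extracted -/
theorem ft_mix (ft : FTo n Λ s₀) (h : Nef (c • mx s₀ - Γ)) (b : Bdy n Λ Γ) (lc : ELc n 0 Γ All)
    (hT : T.Finite) (k : ∀ P ∈ T, ld (n + 1) Γ P ≤ 1 / 2) : ∃ (Γ₀ : BD K) (c : ℝ),
      Klt (n + 1) Γ₀ ∧ Bdy n Λ Γ₀ ∧ Nef (c • mx s₀ - Γ₀) ∧ Big (c • mx s₀ - Γ₀) ∧
      ∀ P ∈ T, ld (n + 1) Γ₀ P ≤ 1 := by
  obtain ⟨Γ₀, c₀, k0, b0, m0, m1⟩ := ft.ex
  obtain ⟨η, η0, η1, η2⟩ := small hT (ld (n + 1) Γ₀) one_pos one_half_pos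
  have e : ((1 - η) * c + η * c₀) • mx s₀ - ((1 - η) • Γ + η • Γ₀) =
      η • (c₀ • mx s₀ - Γ₀) + (1 - η) • (c • mx s₀ - Γ) := by module
  have x := h.smul (sub_pos.2 η1).le
  refine ⟨(1 - η) • Γ + η • Γ₀, (1 - η) * c + η * c₀, fun P => neg_lt_iff_pos_add.2 ?_,
    fun P a => ?_, e ▸ (m0.smul η0.le).add x, e ▸ (m1.smul η0).add_nef x, fun P a => ?_⟩
  · exact (add_pos_of_nonneg_of_pos (mul_nonneg (sub_pos.2 η1).le (lc P trivial))
      (mul_pos η0 (neg_lt_iff_pos_add.1 (k0 P)))).trans_eq (ld_mix Γ Γ₀ η P).symm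
  · have := ld_mix (n := n + 1) Γ Γ₀ η P
    simp only [ld] at this
    nlinarith [b P a, b0 P a]
  · rw [ld_mix]
    nlinarith [k P a, η2 P a, lc P trivial]

section rows

variable (hM : MOD) (hN : NEG) (hK : FF K (n + 1))

include hN hK in
/-- the push forward of an anti-nef pair is smaller -/
theorem hull_le (hΛ : Smp Λ) (hb : Big Λ) (h : Nef (c • Λ - Γ)) (d : Dsc Λ Θ)
    (e : ∀ P, On n Λ P → Θ P ≤ Γ P) : Θ ≤ Γ := by
  obtain ⟨a, -, k⟩ := d.exists_add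
  have x := h.add (k a le_rfl).nef
  rw [show c • Λ - Γ + (Θ + a • Λ) = Θ - Γ + (c + a) • Λ by module] at x
  exact sub_nonpos.1 (hN.neg n K hK Λ _ _ hΛ hb
    (by simpa using sub_mem x.car (Submodule.smul_mem _ (c + a) hΛ.car)) x
    fun P a => sub_nonpos.2 (e P a))

include hN hK in
/-- a divisor with vertical components is bounded by a divisor of the base -/
theorem vert (hΛ : Smp Λ) (hb : Big Λ) (hB : Smp B) (d : Dsc Λ B) (dZ : Dsc Λ Z) (hT : T.Finite)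
    (h : ∀ P, On n Λ P → Z P ≤ 0 ∨ (P ∈ T ∧ ¬ Hor (fld B) P)) : ∃ G, Dsc B G ∧ Z ≤ G := by
  classical
  have k : ∀ P, ∃ G, Dsc B G ∧ 0 ≤ G ∧ (¬ Hor (fld B) P → Z P ≤ G P) := fun P => by
    by_cases e : Hor (fld B) P
    · exact ⟨0, .zero hB, le_rfl, fun a => (a e).elim⟩
    obtain ⟨G, r, p⟩ := rep_vert hB.eff e
    exact ⟨(|Z P| / G P) • G, ((Dsc.refl hB).congr r.2).smul _,
      smul_nonneg (div_nonneg (abs_nonneg _) p.le) r.1, fun _ => (le_abs_self _).trans_eq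
        (div_mul_cancel₀ _ p.ne').symm⟩
  choose G g1 g2 g3 using k
  have e := Dsc.sum hB hT.toFinset fun P _ => g1 P
  refine ⟨_, e, sub_nonneg.1 (Gs.det hN hK hΛ hb ((d.trans e).sub dZ) fun P a =>
    sub_nonneg.2 ?_)⟩
  rcases h P a with x | x
  · exact x.trans (Finset.sum_nonneg (fun Q _ => g2 Q) P)
  · exact (g3 P x.2).trans (Finset.single_le_sum (fun Q _ => g2 Q) (hT.mem_toFinset.2 x.1) P)

include hM hN hK in
/-- an extraction with a datum of Fano type -/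
theorem extr (he : EXTR) (ft : FTo n Λ s₀) (h : Nef (c • mx s₀ - Γ)) (b : Bdy n Λ Γ)
    (lc : ELc n 0 Γ All) (hT : T.Finite) (k : ∀ P ∈ T, ld (n + 1) Γ P ≤ 1 / 2) :
    ∃ Λ', FTo n Λ' s₀ ∧ QF n Λ' ∧ Dsc Λ' Λ ∧ ∀ P, On n Λ' P ↔ On n Λ P ∨ P ∈ T := by
  obtain ⟨Γ₀, c₀, k0, b0, m0, m1, k1⟩ := ft_mix ft h b lc hT k
  obtain ⟨c', m2⟩ := nef_over ft.des m0
  obtain ⟨Λ', a1, a2, a3, a4, a5⟩ := he n K hK Λ Γ₀ c' T ft.smp ft.big m2 b0 k0 hT k1
  exact ⟨Λ', ⟨a1, a2, a4.trans ft.des, Γ₀, c₀, k0, fun P a => ((a5 P).1 a).elim (b0 P)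
    fun x => by linarith [show dsc (n + 1) Γ₀ P + 1 ≤ 1 from k1 P x], m0, m1⟩, a3, a4, a5⟩

include hM hN hK in
/-- the push forward to a lower model, and the raised pair is lc -/
theorem low {δ' : ℝ} (ac : Ga.AC0 n 1 (Wv.PhiL q) δ') (d1 : δ ≤ 1) (d2 : δ ≤ δ') (hq : 0 < q)
    (ft : FTo n Λ' s₀) (qf : QF n Λ') (h : Nef (c • mx s₀ - Γ)) (lc : ELc n 0 Γ All)
    (d : Dsc Λ' Θ) (k : ∀ P, On n Λ' P → (Θ P = Γ P ∧ 1 - ld (n + 1) Γ P ∈ Phi q) ∨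
      (ld (n + 1) Θ P = 0 ∧ ld (n + 1) Γ P ≤ δ)) :
    ∃ Γ', Hull n Λ' Γ Γ' ∧ Γ' ≤ Γ ∧ ELc n 0 Θ All := by
  have cΓ : Γ ∈ Car K := by simpa using sub_mem (Submodule.smul_mem _ c (mx_mem_Car s₀)) h.car
  obtain ⟨Γ', a, b⟩ := Gs.exists_hull hN hK ft.smp qf
    (Gs.isb_fin hK hN ft.smp ft.big ((hM.isb n K hK).1 Γ cΓ))
  obtain ⟨c₁, h₁⟩ := nef_over ft.des h
  have le := hull_le hN hK ft.smp ft.big h₁ a fun P x => (b P x).le
  obtain ⟨Γ₀, c₀, k0, b0, m0, -⟩ := ft.ex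
  obtain ⟨c₂, h₂⟩ := nef_over ft.des m0
  have e : ∀ P, On n Λ' P → dsc (n + 1) Γ' P + 1 = ld (n + 1) Γ P := fun P x => by
    simp only [ld, dsc, Pi.sub_apply, b P x]
  have f : ∀ P, On n Λ' P → (Θ - Γ') P = ld (n + 1) Γ P - ld (n + 1) Θ P := fun P x => by
    simp only [ld, dsc, Pi.sub_apply, b P x]
    ring
  have g : ∀ P, On n Λ' P → Θ P = Γ P → (Θ - Γ') P = 0 := fun P x y => by
    rw [Pi.sub_apply, b P x, y, sub_self]
  have o : ∀ P, On n Λ' P → ld (n + 1) Γ P ≤ 1 := fun P x =>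
    (k P x).elim (fun y => sub_nonneg.1 (Lcb.phi_nn hq y.2)) fun y => y.2.trans d1
  refine ⟨Γ', ⟨a, b⟩, le, fun Q _ => ?_⟩
  have := ac K hK Λ' Γ' 0 Γ₀ (Θ - Γ') c₂ univ ft.smp ft.big (fun _ _ _ _ => trivial) .zero
    (by simpa using zero_mem _) (by simpa using a) (fun P x => by linarith [e P x, o P x]) h₂ b0
    (fun Q _ => k0 Q) (fun Q _ => by
      have := lc Q trivial
      have := le Q
      simp only [ld, dsc, Pi.sub_apply] at *
      linarith)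
    (fun P _ x => ⟨(e P x).trans_le (o P x), .inr ((k P x).imp (fun y => e P x ▸ y.2)
      fun y => (e P x).trans_le (y.2.trans d2))⟩) (d.sub a)
    (Gs.det hN hK ft.smp ft.big (d.sub a) fun P x => (k P x).elim (fun y => (g P x y.1).ge)
      fun y => by rw [f P x, y.1, sub_zero]; exact lc P trivial)
    (fun P _ x => (k P x).elim (fun y => by
        rw [g P x y.1, e P x]; exact ⟨lc P trivial, fun z => (lt_irrefl _ z).elim⟩)
      fun y => by rw [f P x, y.1, sub_zero, e P x]; exact ⟨le_rfl, fun _ => y.2.trans d2⟩) Q trivial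
  rw [add_sub_cancel] at this
  exact neg_le_iff_add_nonneg.1 this

end rows

/-- **RAISE** over a base; the fibres have dimension at most `N` -/
def RAISE (n N : ℕ) : Prop := ∀ q : ℕ, 0 < q → ∃ δ : ℝ, 0 < δ ∧ ForN n fun K _ _ =>
  ∀ (Λ Γ : BD K) (s₀ : Finset K) (T : Set (Pl K)), Rel n Λ s₀ Γ →
    (∀ B, Dsc B (mx s₀) → n + 1 ≤ N + dim B) → ELc n 0 Γ All → Cf n Λ Γ (Phi q) All → T.Finite →
    (∀ P ∈ T, ld (n + 1) Γ P ≤ δ) → ∃ Λ' Γ', Rel n Λ' s₀ Γ' ∧ QF n Λ' ∧ ELc n 0 Γ' All ∧ Γ ≤ Γ' ∧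
      (∀ P ∈ T, ld (n + 1) Γ' P = 0) ∧ (∀ P, On n Λ' P → P ∈ T ∨ (On n Λ P ∧ Γ' P = Γ P)) ∧
      ∃ c : ℝ, Smp (c • mx s₀ - Γ')

theorem raise (hM : MOD) (hN : NEG) (he : EXTR) (h0 : FTM0) (h1 : FTM1) {n N : ℕ}
    (ga : Ga.GAF N) (ac : Ga.ACC n) : RAISE n N := fun q hq => by
  classical
  obtain ⟨δ₁, d1, ga⟩ := ga 1 _ one_pos (Wv.den_phi hq)
  obtain ⟨δ₂, d2, ac⟩ := ac 1 _ one_pos (Wv.den_phi hq)
  obtain ⟨δ, d0, e1, e2, e3⟩ : ∃ δ : ℝ, 0 < δ ∧ δ ≤ δ₁ ∧ δ ≤ δ₂ ∧ δ ≤ 1 / 2 :=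
    ⟨min δ₁ (min δ₂ (1 / 2)), lt_min d1 (lt_min d2 one_half_pos), min_le_left _ _,
      (min_le_right _ _).trans (min_le_left _ _), (min_le_right _ _).trans (min_le_right _ _)⟩
  refine ⟨δ, d0, fun K _ _ hK Λ Γ s₀ T r hd lc cf hT k => ?_⟩
  obtain ⟨c, nf⟩ := r.nef
  obtain ⟨Λ₁, ft, qf, dd, on⟩ := extr hM hN hK he r.ft nf r.pr.bdy lc hT fun P a => (k P a).trans e3
  obtain ⟨S, s1, s2⟩ := Gs.exists_hull hN hK ft.smp qf
    (Z := fun P => if P ∈ T then ld (n + 1) Γ P else 0) (hT.subset fun P a => by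
      by_contra b
      exact a.2 (if_neg b))
  replace s2 : ∀ P, On n Λ₁ P → S P = if P ∈ T then ld (n + 1) Γ P else 0 := s2
  have dΘ := (dd.trans r.pr.des).add s1
  have t1 : ∀ P ∈ T, ld (n + 1) (Γ + S) P = 0 := fun P a => by
    have := (s2 P ((on P).2 (.inr a))).trans (if_pos a)
    simp only [ld, dsc, Pi.sub_apply, Pi.add_apply] at this ⊢
    linarith
  have t2 : ∀ P, On n Λ₁ P → P ∉ T → On n Λ P ∧ (Γ + S) P = Γ P := fun P a b =>
    ⟨((on P).1 a).resolve_right b, by rw [Pi.add_apply, s2 P a, if_neg b, add_zero]⟩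
  have s0 : 0 ≤ S := Gs.det hN hK ft.smp ft.big s1 fun P a => by
    rw [s2 P a]
    split_ifs
    exacts [lc P trivial, le_rfl]
  have qΘ : CarQ (Γ + S) := Gs.carQ_of hN hK ft.smp ft.big dΘ fun P a => by
    by_cases b : P ∈ T
    · obtain ⟨z, hz⟩ := (hM.isb n K hK).2.2 P
      have := t1 P b
      simp only [ld, dsc, Pi.sub_apply, hz] at this
      exact ⟨z + 1, by push_cast; linarith⟩
    · exact (t2 P a b).2 ▸ r.pr.rat.rat P
  have lw : ∀ Λ' D', FTo n Λ' s₀ → QF n Λ' → Hull n Λ' (-(Γ + S)) D' →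
      (∀ P, On n Λ' P → On n Λ₁ P) → (∀ P, On n Λ' P → (-D') P = (Γ + S) P) ∧
      ∃ Γ', Hull n Λ' Γ Γ' ∧ Γ' ≤ Γ ∧ ELc n 0 (-D') All := fun Λ' D' a b x y => by
    have v : ∀ P, On n Λ' P → (-D') P = (Γ + S) P := fun P z => by
      rw [Pi.neg_apply, x.2 P z, Pi.neg_apply, neg_neg]
    refine ⟨v, low hM hN hK (ac n le_rfl) (e3.trans (by norm_num)) e2 hq a b nf lc x.1.neg
      fun P z => ?_⟩
    by_cases w : P ∈ T
    · exact .inr ⟨by simpa only [ld, dsc, Pi.sub_apply, v P z] using t1 P w, k P w⟩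
    · exact .inl ⟨(v P z).trans (t2 P (y P z) w).2, cf P (t2 P (y P z) w).1 trivial⟩
  by_cases ps : ∃ c : ℝ, Psef (-(Γ + S) + c • mx s₀)
  · obtain ⟨c₁, ps⟩ := ps
    obtain ⟨Λ', D', c', a1, a2, a3, a4, a5, a6⟩ := h0 n K hK Λ₁ _ s₀ c₁ ft qf dΘ.neg qΘ.neg ps
    obtain ⟨v, -, -, -, l⟩ := lw Λ' D' a1 a2 a3 fun P a => ((a5 P).1 a).1
    have z := (a6 c' le_rfl).1
    have le : Γ + S ≤ -D' := le_neg.1 (sub_nonneg.1 z.nn)
    have sm : Smp (c' • mx s₀ - -D') := by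
      have := z.smp
      rwa [show -(Γ + S) + c' • mx s₀ - (-(Γ + S) - D') = c' • mx s₀ - -D' by abel] at this
    refine ⟨Λ', -D', ⟨⟨a1.smp, a1.big, a3.1.neg, a4.neg, fun P a => ?_⟩, a1, c', sm.nef⟩, a2, l,
      (le_add_of_nonneg_right s0).trans le, fun P a => le_antisymm ?_ (l P trivial),
      fun P a => or_iff_not_imp_left.2 fun b => ?_, c', sm⟩
    · by_cases b : P ∈ T
      · have := t1 P b
        simp only [ld, dsc, Pi.sub_apply, v P a] at this ⊢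
        linarith
      · have x := t2 P ((a5 P).1 a).1 b
        simpa only [dsc, Pi.sub_apply, v P a, x.2] using r.pr.bdy P x.1
    · have x := t1 P a
      have y := le P
      simp only [ld, dsc, Pi.sub_apply] at x ⊢
      linarith
    · exact (t2 P ((a5 P).1 a).1 b).imp_right (v P a).trans
  obtain ⟨Λ', D', s₁, m, a1, a2, a3, a4, -, -, a5, a6, a7, a8, a9⟩ :=
    h1 n K hK Λ₁ _ s₀ ft qf dΘ.neg qΘ.neg (not_exists.1 ps)
  obtain ⟨v, Γ', g1, g2, l⟩ := lw Λ' D' a1 a3 a4 a5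
  obtain ⟨a, ha⟩ := a9 Γ' g1.1
  have hB := smp_mx s₁
  have bg := a8.big_iff.1 a1.big
  have a0 : 0 ≤ a := not_lt.1 fun x => a7 (Dsc.big (β := (-a) • (m • mx s₁ - D') +
    (c • mx s₀ - Γ')) (by
      rw [show (-a) • (m • mx s₁ - D') + (c • mx s₀ - Γ') =
        (-a * m) • mx s₁ + c • mx s₀ - (Γ' - a • D') by module]
      exact (((Dsc.refl hB).smul _).add (a6.smul c)).sub ha)
    ((bg.smul (neg_pos.2 x)).add_psef (nf.psef.mono (sub_le_sub_left g2 _))))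
  obtain ⟨τ, τ0, τ1, e⟩ : ∃ τ : ℝ, 0 ≤ τ ∧ τ < 1 ∧ (1 - τ) * a = τ :=
    ⟨a / (1 + a), by positivity, (div_lt_one (by positivity)).2 (by linarith), by
      field_simp; ring⟩
  have dτ : Dsc (mx s₁) ((1 - τ) • Γ' + τ • -D') := by
    have := ha.smul (1 - τ)
    rwa [smul_sub, smul_smul, e, sub_eq_add_neg, ← smul_neg] at this
  have lΓ : ∀ P, ld (n + 1) Γ P ≤ ld (n + 1) Γ' P := fun P => by
    have := g2 P
    simp only [ld, dsc, Pi.sub_apply]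
    linarith
  have u1 : ∀ P, On n Λ' P → ld (n + 1) Γ' P = ld (n + 1) Γ P := fun P x => by
    simp only [ld, dsc, Pi.sub_apply, g1.2 P x]
  have u2 : ∀ P, On n Λ' P → P ∈ T → ld (n + 1) ((1 - τ) • Γ' + τ • -D') P =
      (1 - τ) * ld (n + 1) Γ P := fun P x y => by
    rw [ld_mix, u1 P x, show ld (n + 1) (-D') P = 0 by
      simpa only [ld, dsc, Pi.sub_apply, v P x] using t1 P y, mul_zero, add_zero]
  have u3 : ∀ P ∈ T, (1 - τ) * ld (n + 1) Γ P ≤ δ := fun P y => by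
    nlinarith [k P y, lc P trivial]
  obtain ⟨c₁, -, x1⟩ := dτ.exists_add
  obtain ⟨c₂, -, x2⟩ := dτ.neg.exists_add
  have key := ga n K hK Λ' (mx s₁) ((1 - τ) • Γ' + τ • -D') 0 a1.smp a1.big hB a2.des (hd _ a6)
    .zero (by simpa using zero_mem _) ⟨max c₁ c₂, by
      rw [add_zero, add_comm]; exact (x1 _ (le_max_left _ _)).nef, by
      rw [add_zero, ← neg_add_eq_sub]; exact (x2 _ (le_max_right _ _)).nef⟩
    (fun P _ => neg_le_iff_add_nonneg.2 ((add_nonneg (mul_nonneg (sub_pos.2 τ1).le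
      ((lc P trivial).trans (lΓ P))) (mul_nonneg τ0 (l P trivial))).trans_eq (ld_mix _ _ _ P).symm))
    fun P _ x => by
      change Ga.Co _ _ (ld (n + 1) _ P)
      by_cases y : P ∈ T
      · rw [u2 P x y]
        exact ⟨(u3 P y).trans (e3.trans (by norm_num)), .inr (.inr ((u3 P y).trans e1))⟩
      · have w := t2 P (a5 P x) y
        rw [ld_mix, u1 P x, show ld (n + 1) (-D') P = ld (n + 1) Γ P by
          simp only [ld, dsc, Pi.sub_apply, v P x, w.2], ← add_mul, sub_add_cancel, one_mul]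
        exact ⟨sub_nonneg.1 (Lcb.phi_nn hq (cf P w.1 trivial)), .inr (.inl (cf P w.1 trivial))⟩
  obtain ⟨G, x3, x4⟩ := vert hN hK a1.smp a1.big hB a2.des (a4.1.neg.sub g1.1) hT fun P x => by
    rw [Pi.sub_apply, v P x, g1.2 P x]
    by_cases y : P ∈ T
    · refine or_iff_not_imp_right.2 fun z => ?_
      have w := key P (not_not.1 fun w => z ⟨y, w⟩)
      have i := u2 P x y
      have j := t1 P y
      have o : ld (n + 1) Γ P = 0 := (mul_eq_zero.1 (i.symm.trans (w.elim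
        (fun w => by rw [ld, w]; simp) fun w => absurd (w.trans_eq i)
          (not_lt.2 ((u3 P y).trans e1))))).resolve_left (sub_pos.2 τ1).ne'
      simp only [ld, dsc, Pi.sub_apply] at j o
      linarith
    · exact .inl (sub_nonpos.2 (t2 P (a5 P x) y).2.le)
  refine (a7 (Dsc.big (β := ((1 + a) * m) • mx s₁ + (Γ' - a • D') + G)
    ((((Dsc.refl hB).smul _).add ha).add x3) ((bg.smul (c := 1 + a) (by positivity)).mono ?_))).elim
  rw [show (1 + a) • (m • mx s₁ - D') = ((1 + a) * m) • mx s₁ + (Γ' - a • D') + (-D' - Γ') by module]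
  exact add_le_add le_rfl x4

end Vale.Agent.P283B.Lcr

namespace Vale.Agent.P283B.Lg

open P287D

/-- **RAISE**, the global case -/
theorem raise (hM : MOD) (hN : NEG) (he : EXTR) (h0 : FTM0) (h1 : FTM1) {n : ℕ}
    (ga : Ga.GAF (n + 1)) (ac : Ga.ACC (n + 1)) : RAISE n := fun q hq =>
  let ⟨δ, d, k⟩ := Lcr.raise hM hN he h0 h1 (n := n) ga (fun p I a b =>
    let ⟨δ, d, k⟩ := ac p I a b
    ⟨δ, d, fun m h => k m (h.trans n.le_succ)⟩) q hq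
  ⟨δ, d, fun K _ _ hK Λ Γ T r a b c e =>
    let ⟨Λ', Γ', x1, _, x2, x3, x4, x5, _⟩ :=
      k K hK Λ Γ ∅ T r (fun _ _ => Nat.le_add_right _ _) a b c e
    ⟨Λ', Γ', x1, x2, x3, x4, x5⟩⟩

end Vale.Agent.P283B.Lg
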