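import Vale.Agent.P283B.LC.Nf
import Vale.Agent.P287D.Ti.Tie
import Vale.Agent.P287D.Api.Int
import Vale.Agent.P287D.Mm.Run
import Vale.Agent.P287D.Mm.Mft

/-!
# P283B, block LC: reduction to the normal form, the lifting theorem
-/

open Set Filter Topology
open Vale.Agent.P297Z.Pl

noncomputable section

namespace Vale.Agent.P283B.Lcb

open P287D

variable {n q : ℕ} {K : Type} [Field K] [Algebra ℂ K] {Λ W Y X D Γ Γ₁ Γ₂ Ω κ G β : BD K}
  {P R R₀ S : Pl K} {s s₁ : Finset K} {c ε : ℝ} {T : Finset (Pl K)} {h : Pl K → BD K}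

/-- good minimal models -/
theorem minz (hK : FF K (n + 1)) (hb : Big W) (q : CarQ D) (a : Mm.Adw n W D) (p : Psef D) :
    ∃ Y N, Smp Y ∧ Big Y ∧ ZD D N ∧ Dsc Y (D - N) ∧ CarQ (D - N) ∧
      ∀ P, On n Y P ↔ On n W P ∧ N P = 0 := by
  have hW := a.1.smp
  obtain ⟨U, hU, sub⟩ := Mm.exists_sp hW hb (toFinite {D, W})
    (forall_mem_insert.2 ⟨a.1, forall_eq.2 (.refl hW)⟩)
  have uD : D ∈ U := sub (.inl rfl)
  obtain ⟨A, uA, a1, -, Φ, z, δ, d0, c⟩ :=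
    Mm.min' Api.ma n K hK W D W U hU uD (sub (.inr rfl)) (.refl hW) q a p
  have c := c δ d0 le_rfl
  refine ⟨_, _, c.smp, c.big, z, by simpa using c.des D uD, by simpa using c.rat D uD q,
    fun P => (c.on P).trans (and_congr_right fun _ => ⟨fun e => sub_eq_zero.2 (c.tr D uD P e).symm,
      fun e => le_antisymm (c.le P) ?_⟩)⟩
  have := mul_le_mul_of_nonneg_left (c.nef A uA a1.nef P) d0.le
  rw [map_add, map_smul]
  simp only [Pi.add_apply, Pi.smul_apply, smul_eq_mul, Pi.sub_apply] at e ⊢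
  linarith

/-- ample plus nef -/
def AN (W X : BD K) : Prop := ∃ A, AmpOn W A ∧ Nef (X - A)

theorem AN.nef (h : AN W X) : Nef X := let ⟨_, a, b⟩ := h; by simpa using a.nef.add b

theorem AN.big (h : AN W X) (hb : Big W) : Big X :=
  let ⟨_, a, b⟩ := h; (a.big_iff.1 hb).of_sub b.psef

theorem AN.of_sub (h : AN W X) (k : Nef (β - X)) : AN W β :=
  let ⟨A, a, b⟩ := h; ⟨A, a, by simpa using k.add b⟩

theorem AN.res (hK : FF K (n + 1)) (h : AN W X) (hS : On n W S) : Big (res S X) := by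
  obtain ⟨A, a, b⟩ := h
  have := ((res_ampOn hK S a).big_iff.1 ((on_iff_big hK S a.smp_left.nef).1 hS)).add_nef
    (res_nef hK S b)
  rwa [← res_add hK S a.car b.car, add_sub_cancel] at this

theorem AN.opn (h : AN W X) (d : Dsc W β) : ∃ ε : ℝ, 0 < ε ∧ ε ≤ 1 ∧ AN W (X + ε • β) := by
  obtain ⟨A, a, b⟩ := h
  obtain ⟨ε, e, k⟩ := a.opn d
  have p := lt_min e one_pos
  exact ⟨_, p, min_le_right _ _, _, k _ ((abs_of_pos p).trans_le (min_le_left _ _)),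
    by simpa using b⟩

theorem exists_small {ι : Type*} (T : Finset ι) (x : ι → ℝ) {y : ι → ℝ} (h : ∀ i ∈ T, 0 < y i) :
    ∃ δ : ℝ, 0 < δ ∧ δ ≤ 1 ∧ ∀ i ∈ T, δ * x i < y i := by
  have ev : ∀ᶠ δ : ℝ in 𝓝 0, δ ≤ 1 ∧ ∀ i ∈ T, δ * x i < y i :=
    (ge_mem_nhds one_pos : ∀ᶠ t in 𝓝 (0 : ℝ), t ≤ 1).and ((eventually_all_finset T).2 fun i hi =>
      (by fun_prop : Continuous fun δ : ℝ => δ * x i).continuousAt.eventually_lt
        continuousAt_const (by simpa using h i hi))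
  obtain ⟨δ, a, b⟩ := ((ev.filter_mono nhdsWithin_le_nhds).and
    (self_mem_nhdsWithin (s := Ioi (0 : ℝ)))).exists
  exact ⟨δ, b, a⟩

theorem wt_carQ (h : G ∈ Wt (mx s) R₀) : CarQ G := by
  obtain ⟨-, m, w, -, -, rfl⟩ := h
  exact CarZ.carQ (add_mem (dv_mem_CarZ w) (CarZ.nsmul (mx_mem_CarZ s) m))

theorem sup_zero (l : LS n W κ T h) (a : Sup n W T (κ - Γ)) (hP : On n W P) (e : P ∉ T) :
    dsc (n + 1) Γ P = 0 := by
  have x := a.2 P hP e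
  have y := l.d0 hP
  simp only [dsc, Pi.sub_apply] at x y ⊢
  linarith

/-- lowering the coefficient of the plt divisor -/
theorem sub_eps (l : LS n W κ T h) (hS : S ∈ T) (e0 : 0 < ε) (e1 : ε ≤ 1)
    (z : dsc (n + 1) Γ S = -1) (k : ∀ P, P ≠ S → -1 < dsc (n + 1) Γ P)
    (o : ∀ P, On n Y P → On n W P) (b : Bdy n Y Γ) :
    Klt (n + 1) (Γ - ε • h S) ∧ Bdy n Y (Γ - ε • h S) := by
  have u := l.hull S (l.on S hS)
  refine ⟨fun P => ?_, fun P hP => ?_⟩ <;> rw [dsc_sub, Pi.smul_apply, smul_eq_mul] <;>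
    by_cases e : P = S
  · rw [e, z, u.2 S (l.on S hS), S.δ_self]; linarith
  · linarith [k P e, mul_nonneg e0.le (l.nn (l.on S hS) P)]
  · rw [e, z, u.2 S (l.on S hS), S.δ_self]; linarith
  · rw [u.2 P (o P hP), Pl.δ_ne e]; simpa using b P hP

/-- the log resolution -/
theorem prep (hK : FF K (n + 1)) (ft : FTo n Λ s) (cΓ : Γ ∈ Car K) (h1 : Nef (c • mx s - Γ₁))
    (h2 : Big (c • mx s - Γ₁)) (b : ∀ P, On n Λ P → Ov s R₀ P → dsc (n + 1) Γ₁ P ≤ 0)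
    (z : dsc (n + 1) Γ₁ S = -1) (k : ∀ P, P ≠ S → Ov s R₀ P → -1 < dsc (n + 1) Γ₁ P) :
    ∃ (W κ : BD K) (T : Finset (Pl K)) (h : Pl K → BD K) (Γ' : BD K) (c' : ℝ), LS n W κ T h ∧
      (∀ Q, Q ≠ S → h S Q ≤ dsc (n + 1) κ Q) ∧ S ∈ T ∧ Dsc W Λ ∧ Sup n W T (κ - Γ) ∧
      Sup n W T (κ - Γ') ∧ AN W (c' • mx s - Γ') ∧
      (∀ P, On n Λ P → Ov s R₀ P → dsc (n + 1) Γ' P ≤ 0) ∧ dsc (n + 1) Γ' S = -1 ∧
      ∀ P ∈ T, P ≠ S → Ov s R₀ P → -1 < dsc (n + 1) Γ' P := by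
  classical
  obtain ⟨Γ₀, c₀, k0, b0, n0, -⟩ := ft.ex
  obtain ⟨w, κ, T, h, E, l, p, hT, sκ, sB, -, sE, e0, am⟩ := Ti.exists_lsx hK (finite_singleton S)
    (toFinite {Γ, Γ₀, Γ₁, Λ}) (by
      rintro _ (rfl | rfl | rfl | rfl)
      exacts [cΓ, car_of n0, car_of h1, ft.smp.car]) h1 h2
  obtain ⟨δ, δ0, δ1, δ2⟩ := exists_small (T.filter fun P => P ≠ S ∧ Ov s R₀ P) E
    (y := fun P => dsc (n + 1) Γ₁ P + 1) fun P hP =>
      neg_lt_iff_pos_add.1 (k P (Finset.mem_filter.1 hP).2.1 (Finset.mem_filter.1 hP).2.2)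
  have en : ∀ P, 0 ≤ δ * E P := fun P => mul_nonneg δ0.le (e0 P)
  obtain ⟨a, a0, a1, a2⟩ : ∃ a : ℝ, 0 ≤ a ∧ a < 1 ∧
      (1 - a) * (δ * E S) = a * (dsc (n + 1) Γ₀ S + 1) := by
    have x := k0 S
    have y : 0 < δ * E S + (dsc (n + 1) Γ₀ S + 1) := by linarith [en S]
    exact ⟨δ * E S / _, div_nonneg (en S) y.le, (div_lt_one y).2 (by linarith), by
      field_simp; ring⟩
  have v : ∀ P, dsc (n + 1) ((1 - a) • (Γ₁ + δ • E) + a • Γ₀) P =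
      (1 - a) * (dsc (n + 1) Γ₁ P - δ * E P) + a * dsc (n + 1) Γ₀ P := fun P => by
    rw [dsc_mix, Pr.dsc_add_smul]
  refine ⟨_, κ, T, h, (1 - a) • (Γ₁ + δ • E) + a • Γ₀, (1 - a) * c + a * c₀, l, p S (hT S rfl),
    hT S rfl, (sB Λ (by simp)).1, sκ.sub (sB Γ (by simp)),
    sκ.sub ((((sB Γ₁ (by simp)).add (sE.smul δ)).smul _).add ((sB Γ₀ (by simp)).smul a)),
    ⟨_, (am δ δ0 δ1).smul (sub_pos.2 a1), ?_⟩, fun P x y => ?_, ?_, fun P x y u => ?_⟩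
  · convert n0.smul a0 using 1
    module
  · rw [v]
    exact add_nonpos (mul_nonpos_of_nonneg_of_nonpos (sub_pos.2 a1).le
      (by linarith [b P x y, en P])) (mul_nonpos_of_nonneg_of_nonpos a0 (b0 P x))
  · rw [v, z]; linarith
  · have := mul_pos (sub_pos.2 a1) (sub_pos.2 (δ2 P (Finset.mem_filter.2 ⟨x, y, u⟩)))
    rw [v]
    nlinarith [mul_nonneg a0 (neg_lt_iff_pos_add.1 (k0 P)).le]

/-- the new model `V Y` and the new base `V (mx s₁)`, which is the old one near the point -/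
structure RA (n : ℕ) (Λ Γ : BD K) (s : Finset K) (R₀ S : Pl K) (Y Γ₂ : BD K) (s₁ : Finset K) :
    Prop where
  ft : FTo n Y s₁
  qf : QF n Y
  des : Dsc (mx s₁) (mx s)
  ov : ∀ P, Ov s₁ R₀ P ↔ Ov s R₀ P
  up : ∀ P, Ov s R₀ P → On n Λ P ∨ P = S → On n Y P
  dn : ∀ P, Ov s R₀ P → On n Y P → (On n Λ P ∨ P = S) ∨ dsc (n + 1) Γ P = 0
  ex : ∃ c : ℝ, Nef (c • mx s₁ - Γ₂) ∧ Big (c • mx s₁ - Γ₂) ∧ Big (res S (c • mx s₁ - Γ₂))
  bdy : Bdy n Y Γ₂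
  z2 : dsc (n + 1) Γ₂ S = -1
  plt : ∀ P, P ≠ S → -1 < dsc (n + 1) Γ₂ P

/-- **RED A**: a pair which is plt near the point is replaced by a pair which is plt -/
theorem redA (hE : EXTR) (hK : FF K (n + 1)) (ft : FTo n Λ s) (cΓ : Γ ∈ Car K) (hS : Ov s R₀ S)
    (h1 : Nef (c • mx s - Γ₁)) (h2 : Big (c • mx s - Γ₁))
    (b : ∀ P, On n Λ P → Ov s R₀ P → dsc (n + 1) Γ₁ P ≤ 0) (z : dsc (n + 1) Γ₁ S = -1)
    (k : ∀ P, P ≠ S → Ov s R₀ P → -1 < dsc (n + 1) Γ₁ P) :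
    ∃ Y Γ₂ s₁, RA n Λ Γ s R₀ S Y Γ₂ s₁ := by
  classical
  obtain ⟨W, κ, T, h, Γ', c', l, p, hT, dΛ, sΓ, s', an, b', z', k'⟩ := prep hK ft cΓ h1 h2 b z k
  have ex : ∀ P ∈ T, ∃ f : ℚ, dsc (n + 1) Γ' P ≤ f ∧ (P ≠ S → (f : ℝ) < dsc (n + 1) Γ' P + 1) ∧
      (Ov s R₀ P → (On n Λ P ∨ P = S → f = 0) ∧ (¬ (On n Λ P ∨ P = S) → 0 < f)) := fun P hP => by
    by_cases u : Ov s R₀ P
    · by_cases o : On n Λ P ∨ P = S
      · refine ⟨0, ?_, fun e => ?_, fun _ => ⟨fun _ => rfl, fun x => absurd o x⟩⟩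
        · rcases o with o | rfl
          · simpa using b' P o u
          · simp [z']
        · simpa using neg_lt_iff_pos_add.1 (k' P hP e u)
      · obtain ⟨f, f1, f2⟩ := exists_rat_btwn (max_lt (lt_add_one (dsc (n + 1) Γ' P))
          (neg_lt_iff_pos_add.1 (k' P hP (fun e => o (.inr e)) u)))
        exact ⟨f, (le_max_left _ _).trans f1.le, fun _ => f2, fun _ => ⟨fun x => absurd x o,
          fun _ => Rat.cast_pos.1 ((le_max_right _ _).trans_lt f1)⟩⟩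
    · obtain ⟨f, f1, f2⟩ := exists_rat_btwn (lt_add_one (dsc (n + 1) Γ' P))
      exact ⟨f, f1.le, fun _ => f2, fun x => absurd x u⟩
  choose! f f1 f2 f3 using ex
  obtain ⟨dF, vF⟩ := l.hull_sum fun P => f P
  have qF : CarQ (∑ P ∈ T, (f P : ℝ) • h P) :=
    CarQ.sum T fun P _ => (CarZ.carQ (l.hz P)).qsmul _
  generalize ∑ P ∈ T, (f P : ℝ) • h P = F at dF vF qF
  have vT : ∀ P ∈ T, F P = f P := fun P a => (vF P (l.on P a)).trans (if_pos a)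
  have vN : ∀ P, On n W P → P ∉ T → F P = 0 := fun P a e => (vF P a).trans (if_neg e)
  have oW : ∀ P, On n Λ P ∨ P = S → On n W P := fun P o =>
    o.elim (Pr.on_mono res' hK ft.smp l.smp dΛ) fun e => e ▸ l.on S hT
  have F0 : ∀ P, Ov s R₀ P → On n Λ P ∨ P = S → F P = 0 := fun P u o => by
    by_cases e : P ∈ T
    · rw [vT P e, (f3 P e u).1 o, Rat.cast_zero]
    · exact vN P (oW P o) e
  obtain ⟨G₀, g0, g1⟩ := exists_ge (C := Wt (mx s) R₀) (fun _ => wt_nn) T.finite_toSet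
    fun P => -f P
  obtain ⟨G, hG, g2, m, hm, g3⟩ := wt_large g0 (c' + (n + 2))
  have dH := dΛ.trans ft.des
  have dG := (wt_dsc ft.des G hG).2
  have dD := dF.add (dΛ.trans dG)
  have nD : 0 ≤ F + G := l.hart _ dD fun P hP => by
    have g : 0 ≤ G P := wt_nn hG P
    rw [Pi.add_apply]
    by_cases e : P ∈ T
    · rw [vT P e]
      by_cases u : Ov s R₀ P
      · by_cases o : On n Λ P ∨ P = S
        · simpa [(f3 P e u).1 o] using g
        · exact add_nonneg (Rat.cast_nonneg.2 ((f3 P e u).2 o).le) g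
      · linarith [g1 P e (mt (ov_iff hK).2 u), g2 P]
    · rwa [vN P hP e, zero_add]
  have qD := qF.add (wt_carQ hG)
  have zW : dsc (n + 1) (Γ' + F) S = -1 := by rw [Pr.dsc_add, z', F0 S hS (.inr rfl), sub_zero]
  have pW : ∀ Q, Q ≠ S → -1 < dsc (n + 1) (Γ' + F) Q := fun Q ne =>
    Ti.plt_gt l (by rw [← sub_sub]; exact s'.sub ⟨dF, vN⟩) hT (p Q ne) (fun _ => zW.ge)
      fun R a e _ => by rw [Pr.dsc_add, vT R a]; linarith [f2 R a e]
  have bW : Bdy n W (Γ' + F) := fun P hP => by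
    rw [Pr.dsc_add]
    by_cases e : P ∈ T
    · rw [vT P e]; linarith [f1 P e]
    · rw [vN P hP e, sup_zero l s' hP e, sub_zero]
  have an1 : AN W (G - Γ' - (n + 2 : ℝ) • mx s) := an.of_sub
    (((nef_mx s).smul (c := m - (c' + (n + 2))) (sub_nonneg.2 hm)).congr (by
      convert g3 using 1
      module))
  obtain ⟨ε, e0, e1, an2⟩ := an1.opn (Ti.sup_h l hT).1
  have n2 := (nef_mx s).smul (c := n + 2) (by positivity)
  obtain ⟨kW, bW'⟩ := sub_eps l hT e0 e1 zW pW (fun _ => id) bW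
  have c1 : Γ' + F - ε • h S ∈ Car K := sub_mem (add_mem (car_of an.nef) dF.car)
    ((Car K).smul_mem _ (CarZ.car (l.hz S)))
  have e2 : F + G - (Γ' + F - ε • h S) - (n + 2 : ℝ) • mx s =
      G - Γ' - (n + 2 : ℝ) • mx s + ε • h S := by module
  have an3 : AN W (F + G - (Γ' + F - ε • h S)) := an2.of_sub (by rw [← e2]; simpa using n2)
  obtain ⟨Y₀, N, y1, y2, zd, y3, y4, y5⟩ := minz hK l.big qD
    ⟨dD, _, c1, kW, bW', an3.nef, an3.big l.big⟩ (Eff.of_nonneg nD).psef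
  have dB := Api.rel n K hK W _ _ N s l.smp l.big qD dD c1 kW bW' dH (e2 ▸ an2.nef)
    (e2 ▸ an2.big l.big) zd (by simpa using qD.sub y4)
  obtain ⟨s₁, -, a1⟩ := zd.smp.exists_ampOn
  have NF : ∀ P, Ov s R₀ P → N P = F P := fun P u => by
    refine le_antisymm (by simpa [Ov.zr u G hG] using zd.fix _ (.refl nD) P) ?_
    obtain ⟨G', r, e⟩ := zd.smp.exists_rep (finite_singleton P)
    have := le_ov hK ft.big ft.des (.zero ft.smp) (γ := G' + N - F) (dG.congr (by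
      convert r.2 using 1
      abel)) (fun Q a b => by
        rw [Pi.sub_apply, F0 Q b (.inl a), sub_zero]
        exact add_nonneg r.1 zd.nn Q) u
    simpa [e P rfl] using this
  have H0 : ∀ (m : ℕ) (w : K) P, Ov s R₀ P → (dv w + (m : ℝ) • (F + G - N)) P = P.ord w :=
    fun m w P u => by simp [dv_apply, NF P u, Ov.zr u G hG]
  obtain ⟨c₂, -, s2⟩ := a1.dsc'.neg.exists_add
  have n3 := (s2 c₂ le_rfl).nef
  have v2 : ∀ P, dsc (n + 1) (Γ' + F - N) P = dsc (n + 1) (Γ' + F) P + N P := dsc_sub _ _ _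
  have z2 : dsc (n + 1) (Γ' + F - N) S = -1 := by
    rw [v2, zW, NF S hS, F0 S hS (.inr rfl), add_zero]
  have p2 : ∀ P, P ≠ S → -1 < dsc (n + 1) (Γ' + F - N) P := fun P e =>
    v2 P ▸ (pW P e).trans_le (le_add_of_nonneg_right (zd.nn P))
  have b2 : Bdy n Y₀ (Γ' + F - N) := fun P hP => by
    rw [v2, ((y5 P).1 hP).2, add_zero]
    exact bW P ((y5 P).1 hP).1
  obtain ⟨k3, b3⟩ := sub_eps l hT e0 e1 z2 p2 (fun P a => ((y5 P).1 a).1) b2
  have an4 : AN W (c₂ • mx s₁ - (Γ' + F - N)) := an1.of_sub (by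
    convert n3.add n2 using 1
    module)
  have an5 : AN W (c₂ • mx s₁ - (Γ' + F - N - ε • h S)) := an3.of_sub (by
    convert n3 using 1
    module)
  obtain ⟨c₃, n4⟩ := nef_of (y3.trans a1.1) an5.nef
  rw [neg_add_eq_sub] at n4
  obtain ⟨Y, x1, x2, x3, x4, x5⟩ := hE n K hK Y₀ _ c₃ ∅ y1 y2 n4 b3 k3
    finite_empty fun _ a => a.elim
  have x6 : ∀ P, On n Y P ↔ On n W P ∧ N P = 0 := fun P => by rw [x5, y5]; simp
  refine ⟨Y, _, s₁, ⟨x1, x2, x4.trans (y3.trans a1.1), _, c₂, k3,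
    fun P a => b3 P ((y5 P).2 ((x6 P).1 a)), an5.nef, an5.big l.big⟩, x3, a1.dsc'.trans dB,
    fun P => ⟨fun a => CLe.of_dsc a (a1.dsc'.trans dB), fun a => a1.cle_iff.1
      (On.cle_of_sec hK y4 fun m w w0 hw y => ?_)⟩,
    fun P u o => (x6 P).2 ⟨oW P o, (NF P u).trans (F0 P u o)⟩, fun P u o => ?_,
    ⟨c₂, an4.nef, an4.big l.big, an4.res hK (l.on S hT)⟩,
    fun P a => b2 P ((y5 P).2 ((x6 P).1 a)), z2, p2⟩
  · rw [H0 m w P a] at y
    rw [H0 m w R₀ (CLe.refl _ _)]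
    exact Int.cast_pos.2 (pos_U hK ft.big ft.des w0 (fun Q _ u => (Int.cast_nonneg_iff
      (R := ℝ)).1 ((hw.resolve_left w0 Q).trans_eq (H0 m w Q u))) a (Int.cast_pos.1 y))
  · obtain ⟨o1, o2⟩ := (x6 P).1 o
    by_cases e : P ∈ T
    · refine .inl (by_contra fun y => ((f3 P e u).2 y).ne' ?_)
      rwa [NF P u, vT P e, Rat.cast_eq_zero] at o2
    · exact .inr (sup_zero l sΓ o1 e)

theorem phi_rat {x : ℝ} (h : x ∈ Phi q) : ∃ r : ℚ, x = r := by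
  obtain ⟨j, m, -, -, rfl⟩ := h
  exact ⟨1 - j / (q * m), by push_cast; rfl⟩

/-- **RED B**: the normal form -/
theorem redB (hF : FTM0) (hq : 0 < q) (hK : FF K (n + 1)) (r : RA n Λ Γ s R₀ S Y Γ₂ s₁)
    (hb : Big Λ) (d : Dsc Λ (mx s)) (dΓ : Dsc Λ Γ) (cf : Cf n Λ Γ (Phi q) (Ov s R₀))
    (nΩ : Nef (c • mx s - Ω)) (le : ∀ P, Ov s R₀ P → Γ P ≤ Ω P)
    (lc : ∀ P, Ov s R₀ P → -1 ≤ dsc (n + 1) Ω P) (hS : Ov s R₀ S) (z : dsc (n + 1) Ω S = -1) :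
    ∃ Λ' Γ', NF n Λ' Γ' Γ₂ s₁ R₀ S ∧ Cf n Λ' Γ' (Phi q) (Ov s₁ R₀) ∧
      ∀ P, Ov s R₀ P → Γ P ≤ Γ' P ∧ Γ' P ≤ Ω P := by
  classical
  obtain ⟨b, b1, b2, b3, b4⟩ : ∃ b : BD K, (∀ P, On n Y P → b P ∈ Phi q) ∧ b S = 1 ∧
      (∀ P, Ov s R₀ P → Γ P ≤ (cn K (n + 1) + b) P ∧ (cn K (n + 1) + b) P ≤ Ω P) ∧
      ∀ P, (cn K (n + 1) + b) P ≠ 0 → P = S ∨ Γ P ≠ 0 ∨ cn K (n + 1) P ≠ 0 := by
    refine ⟨fun P => if P = S then 1 else if Ov s R₀ P then 1 - ld (n + 1) Γ P else 0,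
      fun P hP => ?_, if_pos rfl, fun P u => ?_, fun P e => ?_⟩
    · beta_reduce
      split_ifs with e u
      · exact phi_one
      · rcases r.dn P u hP with (o | o) | o
        exacts [cf P o u, absurd o e, by rw [ld, o, zero_add, sub_self]; exact phi_zero hq]
      · exact phi_zero hq
    · have := le P u
      simp only [Pi.add_apply, if_pos u, ld, dsc, Pi.sub_apply] at z ⊢
      split_ifs with e
      · subst e; constructor <;> linarith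
      · constructor <;> linarith
    · simp only [Pi.add_apply, ld, dsc, Pi.sub_apply] at e
      split_ifs at e with x u
      exacts [.inl x, .inr (.inl fun y => e (by rw [y]; ring)), .inr (.inr (by simpa using e))]
  have y1 := r.ft.smp
  have ib := Ba.mod.isb n K hK
  obtain ⟨Z, hZ⟩ := Gs.exists_hull Api.neg hK (Z := cn K (n + 1) + b) y1 r.qf
    ((((Pr.fin_on res' hK y1 r.ft.big (ib.1 Γ dΓ.car)).union
      (Pr.fin_on res' hK y1 r.ft.big ib.2.1)).insert S).subset fun P hP =>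
        (b4 P hP.2).imp_right fun e => e.imp (fun x => ⟨hP.1, x⟩) fun x => ⟨hP.1, x⟩)
  have qZ := Gs.carQ_of Api.neg hK y1 r.ft.big hZ.1 fun P hP => by
    obtain ⟨x, hx⟩ := phi_rat (b1 P hP)
    obtain ⟨y, hy⟩ := ib.2.2 P
    exact ⟨y + x, by rw [hZ.2 P hP, Pi.add_apply, hx, hy]; push_cast; rfl⟩
  obtain ⟨c₁, n1⟩ := nef_of r.des nΩ
  rw [neg_add_eq_sub] at n1
  have ng : ∀ Λ' β, FTo n Λ' s₁ → Dsc Λ' β → (∀ P, On n Λ' P → On n Y P ∧ β P = -Z P) →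
      ∃ G ∈ Wt (mx s₁) R₀, -Ω ≤ β + G := fun Λ' β x y e =>
    let ⟨_, n2⟩ := nef_of x.des n1
    neg_U hK x.smp x.big (wt_dsc x.des) n2 y fun P p u => by
      rw [(e P p).2, hZ.2 P (e P p).1]
      exact neg_le_neg (b3 P ((r.ov P).1 ((ov_iff hK).2 u))).2
  obtain ⟨G, hG, g⟩ := ng Y (-Z) r.ft hZ.1.neg fun P p => ⟨p, rfl⟩
  obtain ⟨m, hm⟩ := wt_prn hG
  obtain ⟨Λ', D', e, f1, f2, f3, f4, f5, f6⟩ := hF n K hK Y (-Z) s₁ (m + c₁) r.ft r.qf hZ.1.neg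
    qZ.neg ((n1.psef.mono (γ := c₁ • mx s₁ + (-Z + G)) (by
      rw [sub_eq_add_neg]; exact add_le_add_right g _)).congr (by
        convert neg_mem hm using 1
        module))
  obtain ⟨zd, f7⟩ := f6 e le_rfl
  have sm : Smp (e • mx s₁ - -D') := by rw [sub_neg_eq_add, add_comm]; exact f7.smp
  have lo : ∀ P, Z P ≤ (-D') P := fun P => by
    have := zd.nn P
    simp only [Pi.sub_apply, Pi.neg_apply, Pi.zero_apply] at this ⊢
    linarith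
  have hi : ∀ P, Ov s R₀ P → (-D') P ≤ Ω P := fun P u =>
    neg_le.1 ((Ov.zr ((r.ov P).2 u)).le (ng Λ' D' f1 f3.1 fun Q a => (f5 Q).1 a))
  have val : ∀ P, On n Λ' P → dsc (n + 1) (-D') P = -b P := fun P p => by
    have := hZ.2 P ((f5 P).1 p).1
    simp only [dsc, Pi.sub_apply, Pi.neg_apply, ((f5 P).1 p).2, Pi.add_apply] at this ⊢
    linarith
  have oY := r.up S hS (.inr rfl)
  have oS : On n Λ' S := (f5 S).2 ⟨oY, by
    have x := lo S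
    have y := hi S hS
    have w := hZ.2 S oY
    simp only [dsc, Pi.sub_apply, Pi.neg_apply, Pi.add_apply, b2] at x y w z ⊢
    linarith⟩
  refine ⟨Λ', -D', ⟨⟨⟨f1.smp, f1.big, f3.1.neg, f4.neg, fun P p => val P p ▸
    neg_nonpos.2 (phi_nn hq (b1 P ((f5 P).1 p).1))⟩, f1, e, sm.nef⟩, f2, oS, (r.ov S).2 hS,
    by rw [val S oS, b2], fun P u => (lc P ((r.ov P).1 u)).trans
      (sub_le_sub_left (hi P ((r.ov P).1 u)) _), r.ex, fun P p => r.bdy P ((f5 P).1 p).1, r.z2,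
    r.plt⟩, fun P p _ => by simpa [ld, val P p] using b1 P ((f5 P).1 p).1,
    fun P u => ⟨?_, hi P u⟩⟩
  obtain ⟨M, r1, r2⟩ := sm.exists_rep (finite_singleton P)
  obtain ⟨f, -, hf⟩ := wt_gen s₁ R₀
  have v : ∀ Q, Ov s R₀ Q → (M + -D' - e • (dv f + mx s₁)) Q = M Q + (-D') Q := fun Q a => by
    rw [Pi.sub_apply, Pi.smul_apply, Ov.zr ((r.ov Q).2 a) _ hf, smul_zero, sub_zero, Pi.add_apply]
  have := le_ov hK hb d dΓ (γ := M + -D' - e • (dv f + mx s₁)) (.of_prn d.smp (by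
    convert sub_mem r1.2 ((Prn K).smul_mem e (dv_mem_Prn f)) using 1
    module)) (fun Q a x => by
      have y := lo Q
      rw [hZ.2 Q (r.up Q x (.inl a))] at y
      rw [v Q x]
      exact ((b3 Q x).1.trans y).trans (le_add_of_nonneg_left (r1.1 Q))) u
  rwa [v P u, r2 P rfl, zero_add] at this

end Vale.Agent.P283B.Lcb

namespace Vale.Agent.P283B

open P287D Lcb

/-- **the lifting theorem** -/
theorem slcs (hE : EXTR) (hF : FTM0) : SLCS := fun n l q hq =>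
  let ⟨N, N0, k⟩ := nf_cpl l hq
  ⟨N, N0, fun K _ _ hK Λ Γ Ω Γ₁ s R₀ S c c' ft d cf nΩ le lc hS z h1 h2 b z1 p => by
    obtain ⟨Y, Γ₂, s₁, r⟩ := redA hE hK ft d.car hS h1 h2
      (fun P x y => add_le_iff_nonpos_left.1 (b P x y)) (eq_neg_of_add_eq_zero_left z1)
      fun P x y => neg_lt_iff_pos_add.2 (p P x y)
    obtain ⟨Λ', Γ', a1, a2, a3⟩ := redB hF hq hK r ft.big ft.des d cf nΩ le
      (fun P x => neg_le_iff_add_nonneg.2 (lc P x)) hS (eq_neg_of_add_eq_zero_left z)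
    obtain ⟨g, ⟨g0, g1⟩, g2⟩ := k K hK Λ' Γ' Γ₂ s₁ R₀ S a1 a2
    exact ⟨g, ⟨g0, fun P u => (mul_le_mul_of_nonneg_left (a3 P u).1 N.cast_nonneg).trans
      (g1 P ((r.ov P).2 u))⟩, fun P u => g2 P ((r.ov P).2 u)⟩⟩

theorem slcp (hE : EXTR) (hF : FTM0) : SLCP := slcp_of (slcs hE hF)

end Vale.Agent.P283B
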