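import Vale.Agent.P283B.LC.Gl
import Vale.Agent.P283B.LC.Gb
import Vale.Agent.P283B.LC.Raise
import Vale.Agent.P283B.LC.Red
import Vale.Agent.P283B.EB.WpB
import Vale.Agent.P287D.Gm.Gen
import Vale.Agent.P287D.On.Fld

/-!
# P283B, block LC: the step `SLCG`
-/

namespace Vale.Agent.P283B.Lg

open P287D

theorem snvt : SNVT :=
  snvt_of Api.ffs Api.mod res' Api.int Api.vol Api.neg fld' Api.pb Api.gen

/-- **SLCG** from effective birationality for nef and big polarisations -/
theorem slcg_of (eb : ∀ m, EBN m) : SLCG := fun n l _ _ _ _ _ _ _ _ w ga ac ms =>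
  lcg_of (raise Api.mod Api.neg extr ftm0 ftm1 ga ac) (lcn (slcs extr ftm0 n l)) ga
    (snvt ftm1 n (fun m _ => eb m) w fun m h => sbase Wp.wpn ftm0 m (ms m h))

end Vale.Agent.P283B.Lg
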