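import Vale.Agent.P283B.LC.Lcs
import Vale.Agent.P283B.LC.G0
import Vale.Agent.P287D.Ti.Tie
import Vale.Agent.P287D.Va.Fld

/-!
# P283B, block LC: plt pairs by tie breaking; the relative and the non-exceptional case
-/

set_option linter.all false

open Set Filter Topology

noncomputable section

namespace Vale.Agent.P283B

open P287D P287D.Pr P287D.Ti

namespace Lca

variable {n : ℕ} {K : Type} [Field K] [Algebra ℂ K] {A H Γ Γ₀ G Λ : BD K} {U : Set (Pl K)}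
  {R : Pl K} {s₀ : Finset K}

theorem small {ι : Type*} (T : Finset ι) {a b : ι → ℝ} (h : ∀ i ∈ T, 0 < a i) {r : ℝ}
    (r0 : 0 < r) : ∃ x : ℝ, 0 < x ∧ x < r ∧ ∀ i ∈ T, x * b i < a i := by
  obtain ⟨x, ⟨x1, x2⟩, x0⟩ := (((gt_mem_nhds r0 : ∀ᶠ t in 𝓝 (0 : ℝ), t < r).and
    ((eventually_all_finset T).2 fun i hi => (show Tendsto (fun t : ℝ => t * b i) (𝓝 0) (𝓝 0) by
      simpa using (continuous_mul_const (b i)).tendsto 0).eventually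
        (gt_mem_nhds (h i hi)))).filter_mono nhdsWithin_le_nhds).and
    (self_mem_nhdsWithin (s := Ioi (0 : ℝ))) |>.exists
  exact ⟨x, x0, x1, x2⟩

theorem nef_seg {t u : ℝ} (h : Nef A) (h' : Nef (A - t • G)) (u0 : 0 ≤ u) (u1 : u ≤ t) :
    Nef (A - u • G) := by
  rcases u0.eq_or_lt with rfl | u0
  · simpa using h
  have t0 := u0.trans_le u1
  have e : A - u • G = (1 - u / t) • A + (u / t) • (A - t • G) := by
    rw [smul_sub, smul_smul, div_mul_cancel₀ _ t0.ne']; module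
  exact e ▸ (h.smul (sub_nonneg.2 ((div_le_one t0).2 u1))).add (h'.smul (div_pos u0 t0).le)

theorem nef_up {c c' : ℝ} (hH : Nef H) (h : Nef (c • H - Γ)) (e : c ≤ c') : Nef (c' • H - Γ) := by
  rw [show c' • H - Γ = c • H - Γ + (c' - c) • H by module]
  exact h.add (hH.smul (sub_nonneg.2 e))

theorem big_up {c c' : ℝ} (hH : Nef H) (h : Big (c • H - Γ)) (e : c ≤ c') : Big (c' • H - Γ) := by
  rw [show c' • H - Γ = c • H - Γ + (c' - c) • H by module]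
  exact h.add_nef (hH.smul (sub_nonneg.2 e))

theorem car_of (hA : A ∈ Car K) (h : Nef (A - Γ)) : Γ ∈ Car K := by
  simpa using sub_mem hA h.car

/-- **PLT**: an lc place `S` of `Γ + t G` at the threshold and a pair which is plt at `S` -/
theorem plt (hK : FF K (n + 1)) (hH : H ∈ Car K) (up : ∀ Q ∈ U, ∀ P, CLe H Q P → P ∈ U)
    (cA : A ∈ Car K) (g0 : 0 ≤ G) (kl : ∀ Q ∈ U, -1 < dsc (n + 1) Γ₀ Q)
    (lc : ∀ Q ∈ U, -1 ≤ dsc (n + 1) Γ Q) (n0 : Nef (A - Γ₀)) (b0 : Big (A - Γ₀))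
    (n1 : Nef (A - Γ)) {τ : ℝ} (n2 : Nef (A - Γ - τ • G)) (hR : R ∈ U)
    (ht : dsc (n + 1) Γ R + 1 < τ * G R) :
    ∃ (t σ : ℝ) (Γ₁ : BD K) (S : Pl K), 0 ≤ t ∧ t < τ ∧ 0 < σ ∧ σ < 1 ∧ S ∈ U ∧ 0 < G S ∧
      (∀ Q ∈ U, -1 ≤ dsc (n + 1) (Γ + t • G) Q) ∧ dsc (n + 1) (Γ + t • G) S = -1 ∧
      dsc (n + 1) Γ₁ S = -1 ∧ (∀ Q ∈ U, Q ≠ S → -1 < dsc (n + 1) Γ₁ Q) ∧ Nef (A - Γ₁) ∧
      Big (A - Γ₁) ∧ Big (res S (A - Γ₁)) ∧ (1 - σ) • (Γ + t • G) + σ • Γ₀ ≤ Γ₁ := by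
  classical
  have p0 : 0 < τ * G R := by linarith [lc R hR]
  have gR : 0 < G R := (g0 R).lt_of_ne fun z => by simp [← z] at p0
  have τ0 : 0 < τ := (mul_pos_iff_of_pos_right gR).1 p0
  have cG : G ∈ Car K := by
    have := (Car K).smul_mem τ⁻¹ (sub_mem n1.car n2.car)
    rwa [sub_sub_cancel, inv_smul_smul₀ τ0.ne'] at this
  obtain ⟨s, κ, T, h, E, l, p, hT, sκ, sB, sX, sE, e0, am⟩ := exists_lsx hK (finite_singleton R)
    (toFinite {Γ, Γ₀, G, H}) (forall_mem_insert.2 ⟨car_of cA n1, forall_mem_insert.2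
      ⟨car_of cA n0, forall_mem_insert.2 ⟨cG, forall_eq.2 hH⟩⟩⟩) n0 b0
  have sΓ := sB Γ (by simp)
  have s0 := sB Γ₀ (by simp)
  have sG := sB G (by simp)
  have u : ∀ Q ∈ U, ∀ P ∈ T, 0 < h P Q → P ∈ U := fun Q hQ P hP z =>
    up Q hQ P (l.cle (l.on P hP) z (sB H (by simp)).1)
  obtain ⟨P₁, hP, mn⟩ := (T.filter fun P => P ∈ U ∧ 0 < G P).exists_min_image
    (fun P => (dsc (n + 1) Γ P + 1) / G P) ⟨R, Finset.mem_filter.2 ⟨hT R rfl, hR, gR⟩⟩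
  obtain ⟨p1, p2, p3⟩ := Finset.mem_filter.1 hP
  obtain ⟨t, t0, t1, t2, t3⟩ : ∃ t : ℝ, 0 ≤ t ∧ t < τ ∧ dsc (n + 1) (Γ + t • G) P₁ = -1 ∧
      ∀ P ∈ T, P ∈ U → -1 ≤ dsc (n + 1) (Γ + t • G) P :=
    ⟨_, div_nonneg (show 0 ≤ dsc (n + 1) Γ P₁ + 1 by linarith [lc P₁ p2]) p3.le,
      (mn R (Finset.mem_filter.2 ⟨hT R rfl, hR, gR⟩)).trans_lt ((div_lt_iff₀ gR).2 ht),
      by rw [dsc_add_smul, div_mul_cancel₀ _ p3.ne']; ring, fun P a b => by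
        rw [dsc_add_smul]
        rcases (g0 P).eq_or_lt with z | z
        · rw [show G P = 0 from z.symm]; linarith [lc P b]
        · linarith [(le_div_iff₀ z).1 (mn P (Finset.mem_filter.2 ⟨a, b, z⟩))]⟩
  obtain ⟨ε, ε0, ε1, ε2⟩ := small (T.filter (· ∈ U)) (a := fun P => dsc (n + 1) Γ₀ P + 1) (b := E)
    (fun P hP => by linarith [kl P (Finset.mem_filter.1 hP).2]) one_pos
  have a0 : ∀ P ∈ T, P ∈ U → 0 < dsc (n + 1) Γ₀ P + 1 - ε * E P := fun P a b =>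
    sub_pos.2 (ε2 P (Finset.mem_filter.2 ⟨a, b⟩))
  obtain ⟨S, hS, mS⟩ := (T.filter fun P => P ∈ U ∧ 0 < G P ∧
    dsc (n + 1) (Γ + t • G) P = -1).exists_min_image
    (fun P => (dsc (n + 1) Γ₀ P + 1 - ε * E P) / G P) ⟨P₁, Finset.mem_filter.2 ⟨p1, p2, p3, t2⟩⟩
  obtain ⟨q1, q2, q3, q4⟩ := Finset.mem_filter.1 hS
  obtain ⟨δ, δ0, op⟩ := (am ε ε0 ε1.le).opn (sup_h l q1).1
  have a2 := a0 S q1 q2
  obtain ⟨η, η0, η1, η2⟩ : ∃ η : ℝ, 0 < η ∧ η ≤ δ ∧ η < dsc (n + 1) Γ₀ S + 1 - ε * E S :=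
    ⟨min δ (_ / 2), lt_min δ0 (half_pos a2), min_le_left _ _,
      (min_le_right _ _).trans_lt (half_lt_self a2)⟩
  obtain ⟨μ, μ0, μ1, μ2⟩ : ∃ μ : ℝ, 0 < μ ∧ μ < (dsc (n + 1) Γ₀ S + 1 - ε * E S) / G S ∧
      μ * G S = dsc (n + 1) Γ₀ S + 1 - ε * E S - η :=
    ⟨_ / G S, div_pos (sub_pos.2 η2) q3, div_lt_div_of_pos_right (sub_lt_self _ η0) q3,
      div_mul_cancel₀ _ q3.ne'⟩
  obtain ⟨σ, σ0, σ1, σ2⟩ := small (T.filter fun P => P ∈ U ∧ dsc (n + 1) (Γ + t • G) P ≠ -1)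
    (a := fun P => dsc (n + 1) (Γ + t • G) P + 1)
    (b := fun P => dsc (n + 1) (Γ + t • G) P + 1 - (dsc (n + 1) Γ₀ P + 1 - ε * E P - μ * G P))
    (fun P hP => by
      obtain ⟨a, b, c⟩ := Finset.mem_filter.1 hP
      linarith [(t3 P a b).lt_of_ne c.symm])
    (r := (τ - t) / (τ - t + μ)) (div_pos (sub_pos.2 t1) (by linarith))
  have σ3 : σ * μ < (1 - σ) * (τ - t) := by
    have := (lt_div_iff₀ (by linarith)).1 σ1
    linarith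
  have σ4 : 0 < 1 - σ := (mul_pos_iff_of_pos_right (sub_pos.2 t1)).1 ((mul_pos σ0 μ0).trans σ3)
  have v : ∀ Q, dsc (n + 1) ((1 - σ) • (Γ + t • G) + σ • (Γ₀ + ε • E + η • h S + μ • G)) Q + 1 =
      (1 - σ) * (dsc (n + 1) (Γ + t • G) Q + 1) +
        σ * (dsc (n + 1) Γ₀ Q + 1 - ε * E Q - η * h S Q - μ * G Q) := fun Q => by
    simp only [dsc, Pi.add_apply, Pi.sub_apply, Pi.smul_apply, smul_eq_mul]
    ring
  have vS : dsc (n + 1) ((1 - σ) • (Γ + t • G) + σ • (Γ₀ + ε • E + η • h S + μ • G)) S = -1 := by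
    have := v S
    rw [q4, (l.hull S (l.on S q1)).2 S (l.on S q1), Pl.δ_self, μ2] at this
    linarith
  have x := (op (-η) (by rwa [abs_neg, abs_of_pos η0])).smul σ0
  have y := (nef_seg n1 n2 (u := t + σ * μ / (1 - σ)) (by positivity) (by
    linarith [(div_lt_iff₀' σ4).2 σ3])).smul σ4.le
  have e : A - ((1 - σ) • (Γ + t • G) + σ • (Γ₀ + ε • E + η • h S + μ • G)) =
      σ • (A - Γ₀ - ε • E + -η • h S) + (1 - σ) • (A - Γ - (t + σ * μ / (1 - σ)) • G) := by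
    match_scalars <;> field_simp <;> ring
  refine ⟨t, σ, _, S, t0, t1, σ0, sub_pos.1 σ4, q2, q3, fun Q hQ => neg_le_iff_add_nonneg.2
    (l.ge (sκ.sub (sΓ.add (sG.smul t))) le_rfl zero_le_one fun P a b =>
      neg_le_iff_add_nonneg.1 (t3 P a (u Q hQ P a b))), q4, vS, fun Q hQ ne => plt_gt l
    (sκ.sub (((sΓ.add (sG.smul t)).smul _).add ((((s0.add (sE.smul ε)).add
      ((sup_h l q1).smul η)).add (sG.smul μ)).smul σ))) q1 (p S q1 Q ne) (fun _ => vS.ge)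
    fun P a b z => ?_, e ▸ x.nef.add y, e ▸ (x.big_iff.1 l.big).add_nef y, ?_, fun Q => ?_⟩
  · have c := u Q hQ P a z
    have d := v P
    rw [(l.hull S (l.on S q1)).2 P (l.on P a), Pl.δ_ne b] at d
    by_cases w : dsc (n + 1) (Γ + t • G) P = -1
    · have : 0 < dsc (n + 1) Γ₀ P + 1 - ε * E P - μ * G P := by
        rcases (g0 P).eq_or_lt with j | j
        · rw [show G P = 0 from j.symm]; linarith [a0 P a c]
        · linarith [(lt_div_iff₀ j).1 (μ1.trans_le (mS P (Finset.mem_filter.2 ⟨a, c, j, w⟩)))]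
      rw [w] at d
      nlinarith
    · linarith [σ2 P (Finset.mem_filter.2 ⟨a, c, w⟩)]
  · rw [e, res_add hK S x.car y.car]
    exact ((res_ampOn hK S x).big_iff.1 ((res'.on n K hK _ S l.smp).1 (l.on S q1))).add_nef
      (res_nef hK S y)
  · have a := mul_nonneg ε0.le (e0 Q)
    have b := mul_nonneg η0.le (l.nn (l.on S q1) Q)
    have c := mul_nonneg μ0.le (g0 Q)
    simp only [Pi.add_apply, Pi.smul_apply, smul_eq_mul]
    nlinarith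

end Lca

open Lca

/-- **LCN**: lc complements if some larger anti-nef pair is not lc over the point -/
def LCN (n : ℕ) : Prop := ∀ q : ℕ, 0 < q → ∃ N : ℕ, 0 < N ∧ ForN n fun K _ _ =>
  ∀ (Λ Γ Θ G : BD K) (s₀ : Finset K) (R₀ R : Pl K) (c τ : ℝ), FTo n Λ s₀ → Dsc Λ Γ →
    Cf n Λ Γ (Phi q) (Ov s₀ R₀) → (∀ P, Ov s₀ R₀ P → Γ P ≤ Θ P) → ELc n 0 Θ (Ov s₀ R₀) →
    Nef (c • mx s₀ - Θ) → 0 ≤ G → Nef (c • mx s₀ - Θ - τ • G) → Ov s₀ R₀ R →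
    ld (n + 1) Θ R < τ * G R → ∃ g, LcC n N Γ (Ov s₀ R₀) g

theorem lcn_of {n : ℕ} (h : LCS n) : LCN n := fun q hq => by
  obtain ⟨N, N0, k⟩ := h q hq
  refine ⟨N, N0, fun K _ _ hK Λ Γ Θ G s₀ R₀ R c τ ft d cf le lc n1 g0 n2 hR ht => ?_⟩
  obtain ⟨Γ₀, c₀, k0, b0, m0, m1⟩ := ft.ex
  have hH := nef_mx s₀
  have n3 : Nef (max c c₀ • mx s₀ - Θ - τ • G) := by
    rw [sub_sub] at n2 ⊢
    exact nef_up hH n2 (le_max_left _ _)
  obtain ⟨t, σ, Γ₁, S, t0, t1, σ0, σ1, a1, -, a2, a3, a4, a5, a6, a7, -, a8⟩ := plt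
    (U := {P | Ov s₀ R₀ P}) hK hH.car (fun _ a _ b => CLe.trans a b)
    (Submodule.smul_mem _ _ hH.car) g0 (fun Q _ => k0 Q)
    (fun Q a => neg_le_iff_add_nonneg.2 (lc Q a)) (nef_up hH m0 (le_max_right c c₀))
    (big_up hH m1 (le_max_right c c₀)) (nef_up hH n1 (le_max_left _ _)) n3 hR ht
  have le' : ∀ P, Ov s₀ R₀ P → Γ P ≤ (Θ + t • G) P := fun P a =>
    (le P a).trans (le_add_of_nonneg_right (mul_nonneg t0 (g0 P)))
  refine k K hK Λ Γ (Θ + t • G) Γ₁ s₀ R₀ S _ (max c c₀) ft d cf (by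
      rw [← sub_sub]; exact nef_seg (nef_up hH n1 (le_max_left _ _)) n3 t0 t1.le) le'
    (fun P a => neg_le_iff_add_nonneg.1 (a2 P a)) a1 (by rw [ld, a3]; simp) a6 a7
    (fun P a b => ?_) (by rw [ld, a4]; simp) fun P a b => neg_lt_iff_pos_add.1 (a5 P b a)
  have x := Lcb.phi_nn hq (cf P a b)
  have y := b0 P a
  have z := a8 P
  have w := le' P b
  simp only [ld, dsc, Pi.add_apply, Pi.sub_apply, Pi.smul_apply, smul_eq_mul] at x y z w ⊢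
  nlinarith

theorem lcv_of {n : ℕ} (h : LCN n) : LCV n := fun q hq => by
  obtain ⟨N, N0, k⟩ := h q hq
  refine ⟨N, N0, fun K _ _ hK Λ Γ s₀ R₀ r hz cf lc => ?_⟩
  obtain ⟨c, n1⟩ := r.nef
  obtain ⟨G, g1, g2⟩ : ∃ G, Rep (mx s₀) G ∧ 0 < G R₀ := by
    obtain ⟨f, hf, e⟩ : ∃ f ∈ fld (mx s₀), f ∉ R₀.ring := by simpa [Hor] using hz
    obtain ⟨ε, h0, G, x⟩ := (mem_fld (eff_mx s₀)).1 hf
    have y := x.add ((Rep.refl (pld_nonneg f)).smul h0.le)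
    rw [sub_add_cancel] at y
    exact ⟨_, y, add_pos_of_nonneg_of_pos (x.nonneg R₀) (mul_pos h0 (pld_pos.2 e))⟩
  obtain ⟨τ, hτ⟩ := exists_nat_gt (ld (n + 1) Γ R₀ / G R₀)
  refine k K hK Λ Γ Γ G s₀ R₀ R₀ (c + τ) τ r.ft r.pr.des cf (fun _ _ => le_rfl) lc
    (nef_up (nef_mx s₀) n1 (le_add_of_nonneg_right τ.cast_nonneg)) g1.1 (n1.congr ?_)
    (CLe.refl _ _) ((div_lt_iff₀ g2).1 hτ)
  rw [show (c + τ) • mx s₀ - Γ - (τ : ℝ) • G - (c • mx s₀ - Γ) = -(τ : ℝ) • (G - mx s₀) by module]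
  exact Submodule.smul_mem _ _ g1.2

theorem ov_empty {n : ℕ} {K : Type} [Field K] [Algebra ℂ K] (hK : FF K (n + 1)) (R P : Pl K) :
    Ov ∅ R P := fun G r a => by
  rw [Ba.mod.zero n K hK G (by simpa using r.2) r.1] at a ⊢
  exact a

theorem lca_of {n : ℕ} (h : LCN n) : LCA n := fun q hq => by
  obtain ⟨N, N0, k⟩ := h q hq
  refine ⟨N, N0, fun K _ _ hK Λ Γ G pr kl am cf t t0 t1 g nk => ?_⟩
  obtain ⟨R, hR⟩ : ∃ R, dsc (n + 1) (Γ + t • G) R ≤ -1 := by simpa [Klt] using nk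
  rw [dsc_add_smul] at hR
  have gR : 0 < G R := (g.1 R).lt_of_ne fun z => by
    rw [← z, Pi.zero_apply] at hR
    linarith [kl R]
  have n1 : Nef ((0 : ℝ) • mx ∅ - Γ) := by simpa using am.nef
  obtain ⟨f, a, b⟩ := k K hK Λ Γ Γ G ∅ R R 0 1 ⟨pr.smp, pr.big, by simpa using Dsc.zero pr.smp,
      Γ, 0, kl, pr.bdy, n1, by simpa using am.big_iff.1 pr.big⟩ pr.des
    (fun P x _ => cf P x trivial) (fun _ _ => le_rfl)
    (fun P _ => (neg_lt_iff_pos_add.1 (kl P)).le) n1 g.1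
    (.of_prn (by simpa [sub_eq_add_neg] using neg_mem g.2)) (CLe.refl _ _) (by rw [ld]; nlinarith)
  exact ⟨f, ⟨a.1, fun P _ => a.2 P (ov_empty hK R P)⟩, fun P _ => b P (ov_empty hK R P)⟩

theorem phi_of_frq {q : ℕ} {x : ℝ} (hq : 0 < q) (h : x ∈ Frq q) (h0 : 0 ≤ x) (h1 : x ≤ 1) :
    x ∈ Phi q := by
  obtain ⟨j, rfl⟩ := h
  have q0 : (0 : ℝ) < q := Nat.cast_pos.2 hq
  have a : 0 ≤ j := by exact_mod_cast (div_nonneg_iff.1 h0).elim (·.1) fun z => absurd z.2 q0.not_ge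
  have b : j ≤ q := by exact_mod_cast (div_le_one q0).1 h1
  obtain ⟨i, hi⟩ := Int.eq_ofNat_of_zero_le (sub_nonneg.2 b)
  have c : (i : ℝ) = q - j := by exact_mod_cast hi.symm
  exact ⟨i, 1, by omega, one_pos, by rw [c]; field_simp; simp⟩

/-- the global case with a real complement which is not lc -/
theorem lcn_glob {n : ℕ} (h : LCN n) (q : ℕ) (hq : 0 < q) : ∃ N : ℕ, 0 < N ∧ ForN n fun K _ _ =>
    ∀ Λ Γ G : BD K, Rel n Λ ∅ Γ → ELc n 0 Γ All → Cf n Λ Γ (Phi q) All → Rep (-Γ) G →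
      ¬ ELc n 0 (Γ + G) All → ∃ g, LcC n N Γ All g := by
  obtain ⟨N, N0, k⟩ := h q hq
  refine ⟨N, N0, fun K _ _ hK Λ Γ G r lc cf g nk => ?_⟩
  obtain ⟨R, hR⟩ : ∃ R, ld (n + 1) (Γ + G) R < 0 := by simpa [ELc] using nk
  rw [ld, dsc_add] at hR
  obtain ⟨c, n1⟩ := r.nef
  obtain ⟨f, a, b⟩ := k K hK Λ Γ Γ G ∅ R R c 1 r.ft r.pr.des (fun P x _ => cf P x trivial)
    (fun _ _ => le_rfl) (fun P _ => lc P trivial) n1 g.1
    (.of_prn (by simpa [sub_eq_add_neg] using neg_mem g.2)) (CLe.refl _ _) (by rw [ld]; linarith)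
  exact ⟨f, ⟨a.1, fun P _ => a.2 P (ov_empty hK R P)⟩, fun P _ => b P (ov_empty hK R P)⟩

theorem Lg.lcn {n : ℕ} (h : LCS n) : Lg.LCN n := fun q hq =>
  let ⟨N, N0, k⟩ := lcn_glob (lcn_of h) q hq
  ⟨N, N0, fun K _ _ hK Λ Γ G r lc cf => k K hK Λ Γ G r lc fun P a _ => phi_of_frq hq
    (cf P a trivial) (sub_nonneg.2 (add_le_of_nonpos_left (r.pr.bdy P a)))
    (sub_le_self _ (lc P trivial))⟩

theorem slcv_of (h : SLCS) : SLCV := fun n l _ _ _ => lcv_of (lcn_of (h n l))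

theorem slca_of (h : SLCS) : SLCA := fun n l _ => lca_of (lcn_of (h n l))

end Vale.Agent.P283B
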