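import Vale.Agent.P283B.LC.Lcs
import Vale.Agent.P287D.Ad.All
import Vale.Agent.P287D.On.Cen

/-!
# P283B, block LC: localisation at a point of the base, lifting, inversion of adjunction
-/

open Set
open Vale.Agent.P297Z.Pl

noncomputable section

namespace Vale.Agent.P283B.Lcb

open P287D

variable {n : ℕ} {K : Type} [Field K] [Algebra ℂ K] {Λ H Γ G β γ : BD K} {P R R₀ S : Pl K}
  {s : Finset K} {c : ℝ} {x : K}

theorem dsc_sub (n : ℕ) (Γ G : BD K) (P : Pl K) : dsc n (Γ - G) P = dsc n Γ P + G P := by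
  simp only [dsc, Pi.sub_apply]; ring

theorem dsc_mix (n : ℕ) (Γ G : BD K) (t : ℝ) (P : Pl K) :
    dsc n ((1 - t) • Γ + t • G) P = (1 - t) * dsc n Γ P + t * dsc n G P := by
  simp only [dsc, Pi.sub_apply, Pi.add_apply, Pi.smul_apply, smul_eq_mul]; ring

theorem car_of (h : Nef (c • mx s - Γ)) : Γ ∈ Car K := Ae.car_of_nef (smp_mx s) h

section cone

variable {C : AddSubmonoid (BD K)}

/-- the places at which all members of `C` vanish -/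
def Zr (C : AddSubmonoid (BD K)) (P : Pl K) : Prop := ∀ G ∈ C, G P = 0

theorem exists_ge (h0 : ∀ G ∈ C, 0 ≤ G) {T : Set (Pl K)} (hT : T.Finite) (a : Pl K → ℝ) :
    ∃ G ∈ C, ∀ P ∈ T, ¬ Zr C P → a P ≤ G P := by
  induction T, hT using Set.Finite.induction_on with
  | empty => exact ⟨0, zero_mem _, fun _ h => h.elim⟩
  | @insert P T _ _ ih =>
    obtain ⟨G, hG, e⟩ := ih
    by_cases z : Zr C P
    · exact ⟨G, hG, forall_mem_insert.2 ⟨fun x => absurd z x, e⟩⟩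
    obtain ⟨F, hF, p⟩ : ∃ F ∈ C, F P ≠ 0 := by simpa [Zr] using z
    have p' : 0 < F P := lt_of_le_of_ne (h0 F hF P) p.symm
    obtain ⟨k, hk⟩ := exists_nat_ge (a P / F P)
    refine ⟨G + k • F, add_mem hG (nsmul_mem hF k),
      forall_mem_insert.2 ⟨fun _ => ?_, fun Q hQ x => ?_⟩⟩
    · have := (div_le_iff₀ p').1 hk
      have g : 0 ≤ G P := h0 G hG P
      rw [Pi.add_apply, Pi.smul_apply, nsmul_eq_mul]
      linarith
    · exact (e Q hQ x).trans (le_add_of_nonneg_right (nsmul_nonneg (h0 F hF) k Q))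

/-- the negativity lemma near the point -/
theorem neg_U (hK : FF K (n + 1)) (hΛ : Smp Λ) (hb : Big Λ) (hC : ∀ G ∈ C, 0 ≤ G ∧ Dsc Λ G)
    (h : Nef (β + c • Λ)) (h' : Dsc Λ γ) (e : ∀ P, On n Λ P → Zr C P → β P ≤ γ P) :
    ∃ G ∈ C, β ≤ γ + G := by
  have cβ : β ∈ Car K := by simpa using sub_mem h.car ((Car K).smul_mem c hΛ.car)
  obtain ⟨G, hG, k⟩ := exists_ge (fun G x => (hC G x).1)
    (Pr.fin_on res' hK hΛ hb ((Ba.mod.isb n K hK).1 _ (sub_mem cβ h'.car))) (β - γ)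
  refine ⟨G, hG, Pr.le_hull res' hK hΛ hb h (h'.add (hC G hG).2) fun P hP => ?_⟩
  have g : 0 ≤ G P := (hC G hG).1 P
  rw [Pi.add_apply]
  by_cases z : Zr C P
  · linarith [e P hP z]
  by_cases y : (β - γ) P = 0
  · rw [Pi.sub_apply] at y; linarith
  · have := k P ⟨hP, y⟩ z
    rw [Pi.sub_apply] at this; linarith

theorem hart_U (hK : FF K (n + 1)) (hb : Big Λ) (hC : ∀ G ∈ C, 0 ≤ G ∧ Dsc Λ G)
    (h : Dsc Λ β) (h' : Dsc Λ γ) (e : ∀ P, On n Λ P → Zr C P → β P ≤ γ P) :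
    ∃ G ∈ C, β ≤ γ + G :=
  let ⟨c, _, k⟩ := h.exists_add
  neg_U hK h.smp hb hC (k c le_rfl).nef h' e

theorem Zr.le (z : Zr C P) (h : ∃ G ∈ C, β ≤ γ + G) : β P ≤ γ P := by
  obtain ⟨G, hG, e⟩ := h
  simpa [z G hG] using e P

/-- pairs which are klt near the point -/
theorem klt_U (hK : FF K n) (hΓ : Γ ∈ Car K) (hH : H ∈ Car K)
    (hC : ∀ G ∈ C, 0 ≤ G ∧ ∃ m : ℝ, G - m • H ∈ Prn K) (k : ∀ P, Zr C P → -1 < dsc n Γ P) :
    ∃ G ∈ C, Klt n (Γ - G) := by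
  classical
  cases n with
  | zero => exact ⟨0, zero_mem _, fun P => (Bm.no_pl hK P).elim⟩
  | succ n =>
  obtain ⟨s, κ, T, h, l, -, c, d⟩ := exists_ls hK finite_empty (toFinite {Γ, H})
    (forall_mem_insert.2 ⟨hΓ, forall_eq.2 hH⟩)
  obtain ⟨G, hG, e⟩ := exists_ge (fun G x => (hC G x).1) T.finite_toSet fun P => -dsc (n + 1) Γ P
  obtain ⟨g0, m, hm⟩ := hC G hG
  obtain ⟨a, b⟩ := l.hull_sum G
  have u : ∑ P ∈ T, G P • h P ≤ G := sub_nonneg.1 (l.hart _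
    ((((d H (.inr rfl)).1.smul m).congr hm).sub a) fun P hP => by
      rw [Pi.sub_apply, b P hP]
      split_ifs
      exacts [(sub_self _).ge, sub_nonneg.2 (g0 P)])
  refine ⟨G, hG, fun Q => ?_⟩
  have v := l.gt (Γ := Γ - ∑ P ∈ T, G P • h P) (Q := Q) (by
    rw [← sub_add]
    exact (c.sub (d Γ (.inl rfl))).add ⟨a, fun P p q => (b P p).trans (if_neg q)⟩) le_rfl one_pos
    fun P p _ => by
      rw [dsc_sub, b P (l.on P p), if_pos p]
      by_cases z : Zr C P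
      · linarith [k P z, z G hG]
      · linarith [e P p z]
  rw [dsc_sub] at v ⊢
  linarith [u Q]

end cone

/-- the divisors of the sections of the multiples of `H` which do not vanish at the point -/
def Wt (H : BD K) (R₀ : Pl K) : AddSubmonoid (BD K) where
  carrier := {G | G R₀ = 0 ∧ ∃ (m : ℕ) (w : K), w ≠ 0 ∧ Sec ((m : ℝ) • H) w ∧
    G = dv w + (m : ℝ) • H}
  add_mem' := by
    rintro _ _ ⟨a, m, w, w0, hw, rfl⟩ ⟨b, k, v, v0, hv, rfl⟩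
    refine ⟨by rw [Pi.add_apply, a, b, add_zero], m + k, w * v, mul_ne_zero w0 v0, ?_, ?_⟩
    · rw [Nat.cast_add, add_smul]; exact hw.mul hv
    · rw [Nat.cast_add, add_smul, dv_mul w0 v0, add_add_add_comm]
  zero_mem' := ⟨rfl, 0, 1, one_ne_zero, by simp [Sec], by simp⟩

theorem wt_nn (h : G ∈ Wt H R₀) : 0 ≤ G := by
  obtain ⟨-, m, w, w0, hw, rfl⟩ := h
  exact hw.resolve_left w0

theorem wt_prn (h : G ∈ Wt H R₀) : ∃ m : ℕ, G - (m : ℝ) • H ∈ Prn K := by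
  obtain ⟨-, m, w, -, -, rfl⟩ := h
  exact ⟨m, by rw [add_sub_cancel_right]; exact dv_mem_Prn w⟩

theorem wt_dsc (d : Dsc Λ H) (G : BD K) (h : G ∈ Wt H R₀) : 0 ≤ G ∧ Dsc Λ G :=
  let ⟨m, e⟩ := wt_prn h
  ⟨wt_nn h, (d.smul m).congr e⟩

theorem wt_car (h : G ∈ Wt (mx s) R₀) : G ∈ Car K := (wt_dsc (.refl (smp_mx s)) G h).2.car

theorem wt_gen (s : Finset K) (R₀ : Pl K) : ∃ f, f ≠ 0 ∧ dv f + mx s ∈ Wt (mx s) R₀ := by
  obtain ⟨u, hu, e⟩ := exists_nz s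
  obtain ⟨f, -, c⟩ := On.exists_ch hu R₀
  rw [e] at c
  exact ⟨f, c.ne, c.eq, 1, f, c.ne, by simpa using c.sec, by simp⟩

theorem wt_large (h : G ∈ Wt (mx s) R₀) (c : ℝ) :
    ∃ G' ∈ Wt (mx s) R₀, G ≤ G' ∧ ∃ m : ℝ, c ≤ m ∧ G' - m • mx s ∈ Prn K := by
  obtain ⟨f, -, hf⟩ := wt_gen s R₀
  obtain ⟨k, hk⟩ := exists_nat_ge c
  obtain ⟨m, hm⟩ := wt_prn h
  refine ⟨G + k • (dv f + mx s), add_mem h (nsmul_mem hf k),
    le_add_of_nonneg_right (nsmul_nonneg (wt_nn hf) k), m + k,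
    hk.trans (le_add_of_nonneg_left m.cast_nonneg), ?_⟩
  rw [← Nat.cast_smul_eq_nsmul ℝ, show G + (k : ℝ) • (dv f + mx s) - ((m : ℝ) + k) • mx s =
    G - (m : ℝ) • mx s + (k : ℝ) • dv f by module]
  exact add_mem hm (Submodule.smul_mem _ _ (dv_mem_Prn f))

theorem wt_rep (h : G ∈ Wt (mx s) R₀) :
    ∃ G' ∈ Wt (mx s) R₀, G ≤ G' ∧ ∃ e : ℝ, 0 < e ∧ Rep (mx s) (e • G') := by
  obtain ⟨G', a, b, m, m1, e⟩ := wt_large h 1
  have m0 : 0 < m := one_pos.trans_le m1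
  refine ⟨G', a, b, m⁻¹, inv_pos.2 m0, ?_⟩
  have := Rep.smul ⟨wt_nn a, e⟩ (inv_pos.2 m0).le
  rwa [inv_smul_smul₀ m0.ne'] at this

theorem Ov.zr (h : Ov s R₀ P) : Zr (Wt (mx s) R₀) P := fun G hG => by
  obtain ⟨G', a, b, e, e0, r⟩ := wt_rep hG
  have := CLe.zero h r (by rw [Pi.smul_apply, a.1, smul_zero])
  rw [Pi.smul_apply, smul_eq_mul, mul_eq_zero, or_iff_right e0.ne'] at this
  exact le_antisymm (this ▸ b P) (wt_nn hG P)

theorem ov_iff (hK : FF K n) : Ov s R₀ P ↔ Zr (Wt (mx s) R₀) P :=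
  ⟨Ov.zr, fun h => On.cle_of_sec hK (carQ_mx s) fun m w w0 hw z => by_contra fun y =>
    z.ne' (h _ ⟨le_antisymm (not_lt.1 y) (hw.resolve_left w0 R₀), m, w, w0, hw, rfl⟩)⟩

theorem le_ov (hK : FF K (n + 1)) (hb : Big Λ) (d : Dsc Λ (mx s)) (h : Dsc Λ β) (h' : Dsc Λ γ)
    (e : ∀ P, On n Λ P → Ov s R₀ P → β P ≤ γ P) (hP : Ov s R₀ P) : β P ≤ γ P :=
  (Ov.zr hP).le (hart_U hK hb (wt_dsc d) h h' fun Q a b => e Q a ((ov_iff hK).2 b))

/-- a function which is regular near the fibre and vanishes somewhere vanishes at the point -/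
theorem pos_U (hK : FF K (n + 1)) (hb : Big Λ) (d : Dsc Λ (mx s)) (x0 : x ≠ 0)
    (e : ∀ P, On n Λ P → Ov s R₀ P → 0 ≤ P.ord x) (hR : Ov s R₀ R) (p : 0 < R.ord x) :
    0 < R₀.ord x := by
  obtain ⟨G, hG, k⟩ := hart_U hK hb (wt_dsc (R₀ := R₀) d) (.zero d.smp) (.dv d.smp x)
    fun Q a b => Int.cast_nonneg (e Q a ((ov_iff hK).2 b))
  by_contra z
  have y : (dv x + G) R = 0 := by
    obtain ⟨a, m, w, w0, hw, rfl⟩ := id hG
    rw [← add_assoc, ← dv_mul x0 w0] at k ⊢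
    refine Ov.zr hR _ ⟨le_antisymm ?_ (k R₀), m, _, mul_ne_zero x0 w0, .inr k, rfl⟩
    rw [dv_mul x0 w0, add_assoc, Pi.add_apply, a, add_zero, dv_apply]
    exact_mod_cast not_lt.1 z
  rw [Pi.add_apply, Ov.zr hR G hG, add_zero, dv_apply] at y
  exact p.ne' (by exact_mod_cast y)

/-- the restrictions to `S` -/
def Ws (hK : FF K n) (s : Finset K) (R₀ S : Pl K) : AddSubmonoid (BD S.κ) where
  carrier := res S '' Wt (mx s) R₀
  add_mem' := by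
    rintro _ _ ⟨a, ha, rfl⟩ ⟨b, hb, rfl⟩
    exact ⟨a + b, add_mem ha hb, res_add hK S (wt_car ha) (wt_car hb)⟩
  zero_mem' := ⟨0, zero_mem _, res_zero hK S⟩

theorem ws_nn (hK : FF K n) (hS : Ov s R₀ S) (h : G ∈ Wt (mx s) R₀) : 0 ≤ res S G :=
  res_nonneg hK S (wt_car h) (wt_nn h) (Ov.zr hS G h)

theorem adj_sub (hK : FF K (n + 1)) (hΓ : Γ ∈ Car K) (hG : G ∈ Car K) :
    adj n S (Γ - G) = adj n S Γ - res S G := by
  have := (a4 n K hK S _ (sub_mem hΓ hG) G hG).1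
  rw [sub_add_cancel] at this
  rw [this, add_sub_cancel_right]

theorem adj_dv (hK : FF K (n + 1)) (S : Pl K) :
    ∃ v : S.κ, v ≠ 0 ∧ ∀ Γ ∈ Car K, adj n S Γ = dv v + res S Γ := by
  obtain ⟨j, j', ⟨j0, j1, -⟩, e⟩ := adj_eq hK S
  have a := Loq.rd_ne (Q := S) (div_ne_zero j0 (zpow_ne_zero (S.ord j) S.t_ne))
    (by rw [ord_div _ j0 (zpow_ne_zero _ S.t_ne), S.ord_t_zpow, sub_self])
  refine ⟨_, div_ne_zero a j1, fun Γ h => ?_⟩
  rw [e, res_add hK S h (dv_mem_Car j), res_dv hK S j0, dv_div a j1]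
  abel

theorem exists_lift (hK : FF K n) (S : Pl K) {u : S.κ} (u0 : u ≠ 0) (k : ℤ) :
    ∃ y : K, y ≠ 0 ∧ S.ord y = k ∧ res S (dv y) = dv u := by
  obtain ⟨f, hf, rfl⟩ := Bm.rd_surj S u
  have a := mt (On.rd_zero_iff S hf).2 u0
  rw [not_or] at a
  have b : S.ord f = 0 := le_antisymm (not_lt.1 a.2) (ord_nonneg_of_mem _ hf)
  refine ⟨f * S.t ^ k, mul_ne_zero a.1 (zpow_ne_zero _ S.t_ne), by rw [S.ord_mul_t a.1, b, zero_add],
    ?_⟩
  rw [dv_mul a.1 (zpow_ne_zero _ S.t_ne), dv_zpow, res_add_smul hK S (dv_mem_Car _) (dv_mem_Car _),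
    res_dv_t hK S, smul_zero, add_zero, res_dv_unit hK S a.1 b]

theorem uext' (hK : FF K (n + 1)) (hΓ : Γ ∈ Car K) (hG : G ∈ Car K) (z : dsc (n + 1) Γ S = -1)
    (g : G S = 0) (h1 : Nef (G - Γ)) (h2 : Big (G - Γ)) (k : Klt n (adj n S Γ - res S G)) :
    ∃ x, x ≠ 0 ∧ S.ord x = 0 ∧ S.rd x = 1 ∧ ∀ R, R ≠ S → -1 < dsc (n + 1) Γ R + G R + R.ord x := by
  obtain ⟨f, hf, e, a⟩ := Ku.uext n K hK S (Γ - G) 1 (by rwa [neg_sub]) (by rwa [neg_sub])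
    (by rw [dsc_sub, z, g, add_zero]) fun Q => .inr (by
      rw [adj_sub hK hΓ hG]; simpa using k Q)
  have b := mt (On.rd_zero_iff S hf).2 (e ▸ one_ne_zero)
  rw [not_or] at b
  exact ⟨f, b.1, le_antisymm (not_lt.1 b.2) (ord_nonneg_of_mem _ hf), e, fun R hR =>
    dsc_sub (n + 1) Γ G R ▸ (a R hR).resolve_left b.1⟩

theorem nef_up {m : ℝ} (h : Nef (c • mx s - Γ)) (hm : c ≤ m) (e : G - m • mx s ∈ Prn K) :
    Nef (G - Γ) :=
  (h.add ((nef_mx s).smul (sub_nonneg.2 hm))).congr (by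
    rwa [show G - Γ - (c • mx s - Γ + (m - c) • mx s) = G - m • mx s by module])

theorem big_up {m : ℝ} (h : Big (c • mx s - Γ)) (hm : c ≤ m) (e : G - m • mx s ∈ Prn K) :
    Big (G - Γ) :=
  (h.add_nef ((nef_mx s).smul (sub_nonneg.2 hm))).congr (by
    rwa [show G - Γ - (c • mx s - Γ + (m - c) • mx s) = G - m • mx s by module])

/-- **LIFT**: the constant one lifts to an adjoint section near the fibre -/
theorem lift (hK : FF K (n + 1)) (hS : Ov s R₀ S) (z : dsc (n + 1) Γ S = -1)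
    (h1 : Nef (c • mx s - Γ)) (h2 : Big (c • mx s - Γ))
    (k : ∀ Q, Zr (Ws hK s R₀ S) Q → -1 < dsc n (adj n S Γ) Q) :
    ∃ x, x ≠ 0 ∧ S.ord x = 0 ∧ S.rd x = 1 ∧
      ∀ R, Ov s R₀ R → R ≠ S → -1 < dsc (n + 1) Γ R + R.ord x := by
  have cΓ := car_of h1
  obtain ⟨_, ⟨G, hG, rfl⟩, a⟩ := klt_U (C := Ws hK s R₀ S) (Bm.ff_κ hK S) (a1 n K hK S Γ cΓ).1
    (res_car hK S (mx s)) (by
      rintro _ ⟨G, hG, rfl⟩
      obtain ⟨m, hm⟩ := wt_prn hG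
      exact ⟨ws_nn hK hS hG, m, res_sub_smul hK S (wt_car hG) (mx_mem_Car s) m ▸ res_prn hK S hm⟩) k
  obtain ⟨G', b, d, m, hm, e⟩ := wt_large hG c
  have r := res_mono hK S (wt_car hG) (wt_car b) d ((Ov.zr hS G hG).trans (Ov.zr hS G' b).symm)
  obtain ⟨x, x0, x1, x2, x3⟩ := uext' hK cΓ (wt_car b) z (Ov.zr hS G' b) (nef_up h1 hm e)
    (big_up h2 hm e) fun Q => by
      have := a Q
      rw [dsc_sub] at this ⊢
      linarith [r Q]
  exact ⟨x, x0, x1, x2, fun R p q => by simpa [Ov.zr p G' b] using x3 R q⟩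

/-- **INV**: inversion of adjunction and connectedness near the fibre -/
theorem inv_U (hK : FF K (n + 1)) (hb : Big Λ) (d : Dsc Λ (mx s)) (hS : Ov s R₀ S)
    (z : dsc (n + 1) Γ S = -1) (h1 : Nef (c • mx s - Γ)) (h2 : Big (c • mx s - Γ))
    (b : ∀ P, On n Λ P → Ov s R₀ P → dsc (n + 1) Γ P ≤ 0)
    (k : ∀ Q, Zr (Ws hK s R₀ S) Q → -1 < dsc n (adj n S Γ) Q) (hR : Ov s R₀ R) (ne : R ≠ S) :
    -1 < dsc (n + 1) Γ R := by
  obtain ⟨x, x0, x1, x2, x3⟩ := lift hK hS z h1 h2 k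
  have e : ∀ P, On n Λ P → Ov s R₀ P → 0 ≤ P.ord x := fun P p q => by
    by_cases y : P = S
    · exact y ▸ x1.ge
    · have : ((-1 : ℤ) : ℝ) < P.ord x := by push_cast; linarith [x3 P q y, b P p q]
      exact Int.lt_add_one_iff.1 (by linarith [Int.cast_lt.1 this])
  by_contra w
  have p : 0 < R.ord x := Int.cast_pos.1 (by linarith [x3 R hR ne] : (0 : ℝ) < R.ord x)
  have y0 : x - 1 ≠ 0 := fun y => by simp [sub_eq_zero.1 y] at p
  have m := (ord_nonneg_iff _ x0).1 x1.ge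
  have p1 := pos_U hK hb d x0 e hR p
  have p2 := pos_U hK hb d y0 (fun P a b => ord_nonneg_of_mem _
    (sub_mem ((ord_nonneg_iff _ x0).1 (e P a b)) (one_mem _))) hS (Loq.ord_pos_of_rd y0
      (sub_mem m (one_mem _)) (by rw [Ae.rd_sub m (one_mem _), x2, Ae.rd_one, sub_self]))
  have q := min_ord_le_add R₀.toPlace x0 (neg_ne_zero.2 y0) (by simp)
  rw [ord_neg, neg_sub, add_sub_cancel, ord_one] at q
  rcases min_le_iff.1 q with q | q <;> omega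

/-- the places of `S` over the point are followed by places over the point -/
theorem fol (hK : FF K (n + 1)) (hS : Ov s R₀ S) (hΓ : Γ ∈ Car K) (z : dsc (n + 1) Γ S = -1)
    {Q : Pl S.κ} (hQ : Zr (Ws hK s R₀ S) Q) :
    ∃ R, Ov s R₀ R ∧ R ≠ S ∧ dsc n (adj n S Γ) Q = dsc (n + 1) Γ R := by
  obtain ⟨R, a, -, -, b, d⟩ := a2 n K hK S Q {Γ} (mx s) 0 (finite_singleton _)
    (singleton_subset_iff.2 hΓ) (mx_mem_Car s)
  refine ⟨R, (ov_iff hK).2 fun G hG => ?_, a.1, by simpa [z] using d Γ rfl⟩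
  obtain ⟨G', p, q, e, e0, r⟩ := wt_rep hG
  have := (b _ r (by rw [Pi.smul_apply, Ov.zr hS G' p, smul_zero])).1
  rw [res_smul hK S e (wt_car p), Pi.smul_apply, Pi.smul_apply, hQ _ ⟨G', p, rfl⟩, smul_zero,
    smul_eq_mul] at this
  exact le_antisymm ((q R).trans (nonpos_of_mul_nonpos_right this e0)) (wt_nn hG R)

theorem pt_core (hK : FF K (n + 1)) (hs : Nz s) (hS : CLe (mx s) R₀ S) :
    (∃ R' : Pl S.κ, ∀ (m : ℕ) (w : K), w ≠ 0 → Sec ((m : ℝ) • mx s) w →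
      (dv w + (m : ℝ) • mx s) S = 0 →
        (res S (dv w + (m : ℝ) • mx s) R' = 0 ↔ (dv w + (m : ℝ) • mx s) R₀ = 0)) ∨
    ∀ (m : ℕ) (w : K), w ≠ 0 → Sec ((m : ℝ) • mx s) w → (dv w + (m : ℝ) • mx s) S = 0 →
      (dv w + (m : ℝ) • mx s) R₀ = 0 := by
  classical
  obtain ⟨f, hf, c⟩ := On.exists_ch hs R₀
  have c' := c.of_cle hS
  let φ := On.rh S _ c'.mem
  have hk : RingHom.ker φ.rangeRestrict ≤ RingHom.ker (On.rh R₀ _ c.mem) := fun a ha =>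
    On.ker_le c.mem c'.mem (c.pos hS) (congrArg Subtype.val ha)
  have := RingHom.ker_isPrime (On.rh R₀ _ c.mem)
  let q := (RingHom.ker (On.rh R₀ _ c.mem)).map φ.rangeRestrict
  have : q.IsPrime := Ideal.map_isPrime_of_surjective φ.rangeRestrict_surjective hk
  have mem : ∀ a, φ.rangeRestrict a ∈ q ↔ (a : K) = 0 ∨ 0 < R₀.ord a := fun a => by
    rw [← Ideal.mem_comap, Ideal.comap_map_of_surjective _ φ.rangeRestrict_surjective,
      ← RingHom.ker_eq_comap_bot, sup_eq_left.2 hk, On.mem_ker]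
  have key : ∀ (m : ℕ) (w : K), w ≠ 0 → ∀ hw : Sec ((m : ℝ) • mx s) w,
      ((dv w + (m : ℝ) • mx s) R₀ = 0 ↔ φ.rangeRestrict ⟨_, On.div_mem_Af c.ne hw⟩ ∉ q) :=
    fun m w w0 hw => by
      have a := ord_nonneg_of_mem _ (c.mem _ (On.div_mem_Af c.ne hw))
      rw [mem, c.val' w0, Int.cast_eq_zero, or_iff_right (div_ne_zero w0 (pow_ne_zero m c.ne))]
      exact ⟨fun e => e.not_gt, fun e => le_antisymm (not_lt.1 e) a⟩
  have nz : ∀ (m : ℕ) (w : K), w ≠ 0 → (dv w + (m : ℝ) • mx s) S = 0 → S.ord (w / f ^ m) = 0 :=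
    fun m w w0 z => by rwa [c'.val' w0, Int.cast_eq_zero] at z
  by_cases h0 : q = ⊥
  · refine .inr fun m w w0 hw z => (key m w w0 hw).2 fun y => ?_
    rw [h0, Ideal.mem_bot] at y
    exact Loq.rd_ne (div_ne_zero w0 (pow_ne_zero m c.ne)) (nz m w w0 z)
      ((On.rh_apply S c'.mem _).symm.trans (congrArg Subtype.val y))
  obtain ⟨R', r1, r2⟩ := On.ctr (Bm.ff_κ hK S) (B := φ.range)
    (Algebra.map_top φ ▸ ((Subalgebra.fg_top _).2 (On.fg_Af hK hf c.ne)).map φ) q h0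
  have e : S.ord f + S.mz s = 0 := by
    have := c'.eq
    rw [mx_apply] at this
    exact_mod_cast this
  have a0 := mul_ne_zero c.ne (zpow_ne_zero (S.mz s) S.t_ne)
  have a1 : S.ord (f * S.t ^ S.mz s) = 0 := by rw [S.ord_mul_t c.ne, e]
  have a2 := (ord_eq_zero_iff _ a0).1 a1
  have c2 : On.Ch (mx (S.rs s)) (S.rd (f * S.t ^ S.mz s)) R' :=
    On.ch_of (Finset.mem_image_of_mem _ hf) (Loq.rd_ne a0 a1) fun g hg => by
      obtain ⟨g, hg', rfl⟩ := Finset.mem_image.1 hg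
      rw [← On.rd_div S (S.mem_ring_mz (Submodule.subset_span hg')) a2.1 a2.2,
        mul_div_mul_right _ _ (zpow_ne_zero _ S.t_ne)]
      exact r1 _ ⟨⟨_, On.Bf_le c.ne (On.mem_Bf hg')⟩, On.rh_apply S c'.mem _⟩
  refine .inl ⟨R', fun m w w0 hw z => ?_⟩
  have b0 := div_ne_zero w0 (pow_ne_zero m c.ne)
  have b1 := nz m w w0 z
  have e1 : res S (dv w + (m : ℝ) • mx s) R' = R'.ord (S.rd (w / f ^ m)) := by
    rw [show dv w + (m : ℝ) • mx s = dv (w / f ^ m) + (m : ℝ) • (dv f + mx s) by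
      rw [dv_div w0 (pow_ne_zero m c.ne), dv_pow]; module,
      res_add_smul hK S (dv_mem_Car _) (add_mem (dv_mem_Car _) (mx_mem_Car s)),
      res_add hK S (dv_mem_Car _) (mx_mem_Car s), res_dv_unit hK S b0 b1, res_dv' hK S c.ne e,
      res_mx hK]
    simp only [Pi.add_apply, Pi.smul_apply, dv_apply, c2.eq, smul_zero, add_zero]
  have e2 : (φ.rangeRestrict ⟨_, On.div_mem_Af c.ne hw⟩ : S.κ) = S.rd (w / f ^ m) :=
    On.rh_apply S c'.mem _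
  have a := ord_nonneg_of_mem _ (r1 _ (φ.rangeRestrict ⟨_, On.div_mem_Af c.ne hw⟩).2)
  rw [key m w w0 hw, r2, e1, e2, Int.cast_eq_zero, or_iff_right (Loq.rd_ne b0 b1)]
  rw [e2] at a
  omega

/-- **PT**: the point of `S` over the point of the base -/
theorem exists_pt (hK : FF K (n + 1)) (hb : Big Λ) (d : Dsc Λ (mx s)) (hS : Ov s R₀ S)
    (z : dsc (n + 1) Γ S = -1) (h1 : Nef (c • mx s - Γ)) (h2 : Big (c • mx s - Γ))
    (b : Bdy n Λ Γ) (k : Klt n (adj n S Γ)) {Q₁ : Pl S.κ} (h₁ : Zr (Ws hK s R₀ S) Q₁) :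
    ∃ R' : Pl S.κ, ∀ Q, Ov (S.rs s) R' Q ↔ Zr (Ws hK s R₀ S) Q := by
  obtain ⟨R', r1, r2⟩ : ∃ R' : Pl S.κ, Zr (Ws hK s R₀ S) R' ∧ ∀ (m : ℕ) (w : K), w ≠ 0 →
      Sec ((m : ℝ) • mx s) w → (dv w + (m : ℝ) • mx s) S = 0 →
      res S (dv w + (m : ℝ) • mx s) R' = 0 → (dv w + (m : ℝ) • mx s) R₀ = 0 := by
    obtain ⟨u, hu, e⟩ := exists_nz s
    have := pt_core (R₀ := R₀) (S := S) hK hu (e ▸ hS)
    rw [e] at this
    rcases this with ⟨R', r⟩ | r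
    · refine ⟨R', ?_, fun m w a b d => (r m w a b d).1⟩
      rintro _ ⟨G, hG, rfl⟩
      have y := Ov.zr hS G hG
      obtain ⟨a, m, w, w0, hw, rfl⟩ := hG
      exact (r m w w0 hw y).2 a
    · exact ⟨Q₁, h₁, fun m w a b d _ => r m w a b d⟩
  have cΓ := car_of h1
  refine ⟨R', fun Q => ⟨fun h => ?_, fun h => On.cle_of_sec (Bm.ff_κ hK S) (carQ_mx _)
    fun m w w0 hw p => by_contra fun y => ?_⟩⟩
  · rintro _ ⟨G, hG, rfl⟩
    obtain ⟨G', p, q, e, e0, r⟩ := wt_rep hG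
    have r' := res_rep hK S (mx_mem_Car s) r (by rw [Pi.smul_apply, Ov.zr hS G' p, smul_zero])
    rw [res_mx hK, res_smul hK S e (wt_car p)] at r'
    have := CLe.zero h r' (by rw [Pi.smul_apply, r1 _ ⟨G', p, rfl⟩, smul_zero])
    rw [Pi.smul_apply, smul_eq_mul, mul_eq_zero, or_iff_right e0.ne'] at this
    exact le_antisymm (this ▸ res_mono hK S (wt_car hG) (wt_car p) q
      ((Ov.zr hS G hG).trans (Ov.zr hS G' p).symm) Q) (ws_nn hK hS hG Q)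
  obtain ⟨v, v0, v1, v2⟩ := exists_lift hK S w0 (-(m * S.mz s))
  obtain ⟨f, f0, hf⟩ := wt_gen s R₀
  obtain ⟨j, hj⟩ := exists_nat_ge c
  have w1 := hw.resolve_left w0
  obtain ⟨F, hF⟩ : ∃ F, F = dv v + (m : ℝ) • mx s + (j : ℝ) • (dv f + mx s) := ⟨_, rfl⟩
  have zF : F ∈ CarZ K := hF ▸ add_mem (add_mem (dv_mem_CarZ v) (CarZ.nsmul (mx_mem_CarZ s) m))
    (CarZ.nsmul (add_mem (dv_mem_CarZ f) (mx_mem_CarZ s)) j)
  have pF : F - ((m : ℝ) + j) • mx s = dv (v * f ^ j) := by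
    rw [hF, dv_mul v0 (pow_ne_zero j f0), dv_pow]; module
  have sF : F S = 0 := by
    rw [hF, Pi.add_apply, Pi.smul_apply, Ov.zr hS _ hf]
    simp [dv_apply, mx_apply, v1]
  have rF : res S F = dv w + (m : ℝ) • mx (S.rs s) + (j : ℝ) • res S (dv f + mx s) := by
    rw [hF, res_add_smul hK S (add_mem (dv_mem_Car v) (Submodule.smul_mem _ _ (mx_mem_Car s)))
      (wt_car hf), res_add_smul hK S (dv_mem_Car v) (mx_mem_Car s), v2, res_mx hK]
  have nF : 0 ≤ res S F := rF ▸ add_nonneg w1 (smul_nonneg j.cast_nonneg (ws_nn hK hS hf))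
  have hm : c ≤ (m : ℝ) + j := hj.trans (le_add_of_nonneg_left m.cast_nonneg)
  obtain ⟨x, x0, x1, x2, x3⟩ := uext' hK cΓ (CarZ.car zF) z sF
    (nef_up h1 hm (pF ▸ dv_mem_Prn _)) (big_up h2 hm (pF ▸ dv_mem_Prn _)) fun Q => by
      rw [dsc_sub]; exact (k Q).trans_le (le_add_of_nonneg_right (nF Q))
  have g0 := mul_ne_zero x0 (mul_ne_zero v0 (pow_ne_zero j f0))
  have eG : dv (x * (v * f ^ j)) + ((m + j : ℕ) : ℝ) • mx s = dv x + F := by
    rw [dv_mul x0 (mul_ne_zero v0 (pow_ne_zero j f0)), ← pF, Nat.cast_add]; abel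
  have nG : 0 ≤ dv x + F := Pr.hart res' hK d.smp hb (eG ▸ (Dsc.dv d.smp _).add (d.smul _))
    fun P hP => by
      rw [Pi.add_apply, dv_apply]
      by_cases e : P = S
      · rw [e, x1, sF]; simp
      · obtain ⟨i, hi⟩ := CarZ.int zF P
        have a := x3 P e
        have a' : ((-1 : ℤ) : ℝ) < (P.ord x + i : ℤ) := by push_cast; linarith [b P hP]
        rw [hi, ← Int.cast_add]
        exact Int.cast_nonneg (by linarith [Int.cast_lt.1 a'])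
  have rG : res S (dv x + F) = res S F := by
    rw [res_add hK S (dv_mem_Car x) (CarZ.car zF), res_dv_unit hK S x0 x1, x2, dv_one, zero_add]
  have a := r2 (m + j) _ g0 (.inr (eG ▸ nG)) (by rw [eG]; simp [dv_apply, x1, sF]) (by
    rw [eG, rG, rF, Pi.add_apply, Pi.smul_apply, r1 _ ⟨_, hf, rfl⟩,
      le_antisymm (not_lt.1 y) (w1 R'), smul_zero, add_zero])
  have a' := h _ ⟨_, ⟨a, m + j, _, g0, .inr (eG ▸ nG), rfl⟩, rfl⟩
  rw [eG, rG, rF, Pi.add_apply, Pi.smul_apply, h _ ⟨_, hf, rfl⟩, smul_zero, add_zero] at a'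
  exact p.ne' a'

end Vale.Agent.P283B.Lcb
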