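import Vale.Agent.P283B.LC.G0
import Vale.Agent.P283B.ACC.Tor
import Vale.Agent.P283B.ACC.Fib
import Vale.Agent.P283B.VOL.Klt
import Vale.Agent.P287D.Va.Des
import Vale.Agent.P287D.Gf.Des

/-!
# P283B, block LC: effective non-vanishing on varieties of Fano type
-/

set_option linter.unusedVariables false

open Set

noncomputable section

namespace Vale.Agent.P283B.Lg

open P287D

/-- a bound which is uniform in finitely many dimensions -/
theorem unif {A : ℕ → ℕ → Prop} (m : ∀ r N j, 0 < j → A r N → A r (j * N)) (n : ℕ)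
    (h : ∀ r < n, ∃ N, 0 < N ∧ A r N) : ∃ N, 0 < N ∧ ∀ r < n, A r N := by
  induction n with
  | zero => exact ⟨1, one_pos, fun r h => absurd h (Nat.not_lt_zero r)⟩
  | succ n ih =>
    obtain ⟨N, a, b⟩ := ih fun r x => h r (x.trans n.lt_succ_self)
    obtain ⟨M, c, d⟩ := h n n.lt_succ_self
    refine ⟨M * N, Nat.mul_pos c a, fun r x => ?_⟩
    rcases (Nat.lt_succ_iff.1 x).lt_or_eq with y | rfl
    · exact m r N M c (b r y)
    · exact Nat.mul_comm N M ▸ m r M N a d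

variable {K K' : Type} [Field K] [Algebra ℂ K] [Field K'] [Algebra ℂ K'] {n r : ℕ} {ε : ℝ}
  {Λ Λ' B D β κ κ' Γ : BD K} {φ : K →+* K'} {f : K'} {s : Finset K}

/-- a nonzero section of `N D` -/
def Nv (N : ℕ) (D : BD K) : Prop := ∃ g, g ≠ 0 ∧ 0 ≤ dv g + (N : ℝ) • D

theorem Nv.mul {N : ℕ} (h : Nv N D) (j : ℕ) : Nv (j * N) D :=
  let ⟨g, a, b⟩ := h
  ⟨g ^ j, pow_ne_zero _ a, by
    rw [dv_pow, Nat.cast_mul, mul_smul, ← smul_add]; exact smul_nonneg (Nat.cast_nonneg j) b⟩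

/-- multiples of ample integral divisors are not below the anticanonical divisor -/
def TH (ε : ℝ) (r c : ℕ) : Prop := ForN r fun K _ _ => ∀ G β : BD K, Ga.Fa r ε G →
  AmpOn (-G) β → ZOn r (-G) β → ¬ Psef (-G - (c : ℝ) • β)

theorem TH.mul {c : ℕ} (j : ℕ) (hj : 0 < j) (h : TH ε r c) : TH ε r (j * c) :=
  fun K _ _ hK G β a b d e => h K hK G β a b d (by
    have := e.add (b.nef.psef.smul (c := (j - 1 : ℝ) * c) (mul_nonneg
      (sub_nonneg.2 (Nat.one_le_cast.2 hj)) (Nat.cast_nonneg c)))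
    rwa [Nat.cast_mul, show -G - ((j : ℝ) * c) • β + ((j - 1 : ℝ) * c) • β = -G - (c : ℝ) • β by
      module] at this)

section rows

variable (hF : FFS) (hM : MOD) (hR : RES) (hI : INT) (hV : VOL) (hN : NEG) (hL : FLD) (hP : PB)
  (hG : GEN)

include hM hI hV in
theorem th (w : Ga.WV r) (h : 0 < ε) : ∃ c, 0 < c ∧ TH ε r c := by
  obtain ⟨v, V, v0, w⟩ := w ε h
  refine ⟨⌊V / v⌋₊ + 1, Nat.succ_pos _, fun K _ _ hK G β a b d e => ?_⟩
  have x := hV.mono _ K hK _ _ (b.nef.smul (Nat.cast_nonneg _)) a.smp.nef e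
  rw [Wv.vol_smul hM hI hK _ b.car] at x
  have y := (div_lt_iff₀ v0).1 (Nat.lt_floor_add_one (V / v))
  have z : (⌊V / v⌋₊ + 1 : ℝ) ≤ (⌊V / v⌋₊ + 1) ^ (r + 1) :=
    le_self_pow₀ (by simp) r.succ_ne_zero
  push_cast at x
  nlinarith [(w K hK G a).1, (w K hK G a).2 β b d, mul_le_mul z ((w K hK G a).2 β b d) v0.le
    (by positivity)]

include hM in
/-- the divisors of the base are trivial on the fibre -/
theorem fb_prn (k : Ga.Fb n r B φ f) (d : Dsc B β) : pb φ β ∈ Prn K' := by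
  obtain ⟨ε, e, a, b⟩ := (k.ok.dsc d).congr_left (Λ' := 0) (by simpa using neg_mem k.prn)
  obtain ⟨G, a1, a2⟩ := a.eff
  obtain ⟨G', b1, b2⟩ := b.eff
  have k := hM.zero r K' k.ff (G + G') (by simpa using add_mem a2 b2) (add_nonneg a1 b1)
  rw [((add_eq_zero_iff_of_nonneg a1 b1).1 k).1] at a2
  simpa [smul_smul, e.ne'] using (Prn K').smul_mem (-ε⁻¹) a2

theorem fb_amp (k : Ga.Fb n r B φ f) {m : ℝ} (a : AmpOn Λ (m • B - D)) :
    AmpOn (pb φ Λ) (-pb φ D) := (k.ok.ampOn a).congr (by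
  convert (Prn K').smul_mem (-m) k.prn using 1
  rw [pb_sub, pb_smul]
  module)

include hN in
/-- the fibre is a Fano variety -/
theorem fb_fa (k : Ga.Fb n r B φ f) (hΛ : Smp Λ) (bΛ : Big Λ) (d : Dsc Λ B)
    (h : Hull n Λ (cn K (n + 1)) κ) (e : ELc n ε κ All) (a : AmpOn (pb φ Λ) (-pb φ κ)) :
    AmpOn (pb φ Λ) (-(pb φ κ - dv f)) ∧ Ga.Fa r ε (pb φ κ - dv f) ∧
      ∀ β, ZOn n Λ β → ZOn r (-(pb φ κ - dv f)) (pb φ β) := by
  have a' : AmpOn (pb φ Λ) (-(pb φ κ - dv f)) := a.congr (by simpa using dv_mem_Prn f)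
  have o : ∀ P Q, Lies φ P Q → On r (-(pb φ κ - dv f)) P → On n Λ Q := fun P Q l x =>
    (k.on Λ hΛ bΛ d P Q l).1 (((hN.iso r K' k.ff _ _ a'.smp_left a'.smp a').2.2.1 P).2 x)
  refine ⟨a', ⟨a'.smp, a'.big_iff.1 (k.big' bΛ hΛ.car), fun P x => ?_, fun P => ?_⟩,
    fun β z P x => ?_⟩ <;> obtain ⟨Q, l⟩ := k.dn P
  · rw [k.dsc l, dsc, Pi.sub_apply, h.2 Q (o P Q l x), sub_self]
  · exact k.dsc l κ ▸ e Q trivial
  · exact k.val l β ▸ z Q (o P Q l x)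

variable (hK : FF K (n + 1))

include hN hK in
theorem Tq.neg_big (t : Tq n ε Λ κ) : Big (-κ) := by
  obtain ⟨Γ, c, -, b, m, x⟩ := t.ft.ex
  rw [mx_empty, smul_zero, zero_sub] at m x
  obtain ⟨a, -, k⟩ := t.hull.1.exists_add
  refine x.mono (neg_le_neg (sub_nonpos.1 (hN.neg n K hK Λ _ a t.ft.smp t.ft.big
    (by simpa [sub_eq_add_neg] using add_mem t.hull.1.car m.car) ?_ fun P o => ?_)))
  · have := (k a le_rfl).nef.add m
    rwa [add_right_comm, ← sub_eq_add_neg] at this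
  · simpa [dsc, t.hull.2 P o] using b P o

include hM hN hK in
theorem Tq.pr (t : Tq n ε Λ κ) : Pr n Λ κ :=
  ⟨t.ft.smp, t.ft.big, t.hull.1, Gs.carQ_of hN hK t.ft.smp t.ft.big t.hull.1 fun P o =>
    let ⟨z, e⟩ := (hM.isb n K hK).2.2 P
    ⟨z, by rw [t.hull.2 P o, e, Rat.cast_intCast]⟩, fun P o => by simp [dsc, t.hull.2 P o]⟩

include hN hK in
theorem carQ_zon (a : Smp Λ) (b : Big Λ) (d : Dsc Λ D) (z : ZOn n Λ D) : CarQ D :=
  Gs.carQ_of hN hK a b d fun P o => let ⟨x, e⟩ := z P o; ⟨x, by rw [e, Rat.cast_intCast]⟩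

theorem elc_le (h : ELc n ε κ All) (e : κ' ≤ κ) : ELc n ε κ' All := fun P _ => by
  have := h P trivial
  have := e P
  simp only [ld, dsc, Pi.sub_apply] at *
  linarith

include hF hM hV hN hL hG hK in
/-- the pseudo-effective threshold is bounded -/
theorem thr (h1 : FTM1) {c : ℕ} (hc : ∀ r < n + 1, TH ε r c) (t : Tq n ε Λ κ) (d : Dsc Λ D)
    (s : Smp D) (b : Big D) (z : ZOn n Λ D) : Psef (κ + (c : ℝ) • D) := by
  by_contra x
  obtain ⟨Λ', D', s₁, m, -, a1, a2, a3, -, a4, a5, -, a6, a7, a8⟩ := h1 n K hK Λ _ ∅ t.ft t.qf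
    (t.hull.1.add (d.smul c)) ((t.pr hM hN hK).rat.add (by
      simpa using (carQ_zon hN hK t.ft.smp t.ft.big d z).qsmul c)) fun e => by simpa using x
  obtain ⟨E, e⟩ := Gs.exists_hull hN hK a1.smp a2
    (Gs.isb_fin hK hN a1.smp a1.big ((hM.isb n K hK).1 D d.car))
  have le := Gs.le_hull hN hK a1.smp a1.big s e.1 fun P o => (e.2 P o).ge
  obtain ⟨r, K', _, _, φ, f, k⟩ := Ga.exists_fb hF hV hL hG hK (smp_mx s₁) a6
  have A := fb_amp k a7
  obtain ⟨a, ha⟩ := a8 E e.1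
  have p := fb_prn hM k ha
  rw [pb_sub, pb_smul] at p
  have a0 : a < 0 := not_le.1 fun y => Wv.not_big_zero hV k.ff
    (((k.big' (b.mono le) e.1.car).add_nef (A.nef.smul y)).congr (by
      simpa [sub_eq_add_neg] using neg_mem p))
  have AE : AmpOn (pb φ Λ') (pb φ E) := (A.smul (neg_pos.2 a0)).congr (by simpa using p)
  obtain ⟨y1, y2, y3⟩ := fb_fa hN k a1.smp a1.big a1.des (κ := D' - (c : ℝ) • E) (ε := ε)
    ((a3.sub (e.smul c)).congr fun P o => by simp [t.hull.2 P (a5 P o)])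
    (elc_le t.elc (sub_le_iff_le_add.2 (a4.trans (add_le_add le_rfl
      (smul_le_smul_of_nonneg_left le (Nat.cast_nonneg c))))))
    (by
      rw [pb_sub, pb_smul, neg_sub, sub_eq_neg_add]
      exact A.add_smp (AE.smp.smul (Nat.cast_nonneg c)) (AE.dsc.smul c))
  refine hc r (by have := k.dm; omega) K' k.ff _ (pb φ E) y2 (y1.amp_iff.1 AE)
    (y3 E fun P o => e.2 P o ▸ z P (a5 P o)) (A.nef.psef.congr ?_)
  convert dv_mem_Prn f using 1
  rw [pb_sub, pb_smul]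
  abel

/-- non-vanishing with the bound `N` -/
def NV (ε : ℝ) (n N : ℕ) : Prop := ForN n fun K _ _ =>
  ∀ Λ κ D : BD K, Tq n ε Λ κ → Dsc Λ D → Smp D → ZOn n Λ D → Nv N D

include hF hM hI hV hN hL hG in
/-- the case of a big divisor -/
theorem nv_big (h1 : FTM1) (eb : EBN n) (w : Le Ga.WV n) (h : 0 < ε) : ∃ N, 0 < N ∧
    ForN n fun K _ _ => ∀ Λ κ D : BD K, Tq n ε Λ κ → Dsc Λ D → Smp D → ZOn n Λ D → Big D →
      Nv N D := by
  obtain ⟨c, c0, hc⟩ := unif (A := TH ε) (fun _ _ j a b => b.mul j a) (n + 1)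
    fun r x => th hM hI hV (w r (Nat.lt_succ_iff.1 x)) h
  obtain ⟨m, m0, eb⟩ := eb ε 1 h one_pos
  refine ⟨m * c, Nat.mul_pos m0 c0, fun K _ _ hK Λ κ D t d s z b => ?_⟩
  have z' : ZOn n Λ ((c : ℝ) • D) := fun P o =>
    let ⟨x, e⟩ := z P o; ⟨c * x, by simp [e]⟩
  have b' := b.smul (c := c) (Nat.cast_pos.2 c0)
  obtain ⟨g, g0, e⟩ := Vk.bir_ne hK (eb K hK Λ κ _ (t.pr hM hN hK) t.elc
    (fun P o _ => ⟨0, by simp [ld, dsc, t.hull.2 P o]⟩) (d.smul c) (s.smul (Nat.cast_nonneg c)) b'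
    (carQ_zon hN hK t.ft.smp t.ft.big (d.smul c) z') z'
    (sub_eq_add_neg _ κ ▸ (b'.add (t.neg_big hN hK)).psef)
    (add_comm κ _ ▸ thr hF hM hV hN hL hG hK h1 hc t d s b z))
  exact ⟨g, g0, by rw [Nat.cast_mul, mul_smul]; exact e.resolve_left g0⟩

/-- torsion on the fibres -/
def TO (ε : ℝ) (r c : ℕ) : Prop := ForN r fun K _ _ => ∀ G Z : BD K,
  Ga.Fa r ε G → Z ∈ Prn K → ZOn r (-G) Z → ∃ h : K, h ≠ 0 ∧ (c : ℝ) • Z = dv h

theorem TO.mul {c : ℕ} (j : ℕ) (h : TO ε r c) : TO ε r (j * c) := fun K _ _ hK G Z a b d =>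
  let ⟨g, x, y⟩ := h K hK G Z a b d
  ⟨g ^ j, pow_ne_zero _ x, by rw [dv_pow, ← y, Nat.cast_mul, mul_smul]⟩

include hF hM hV hN hL hG hK in
/-- a divisor of the base has a section on the generic fibre -/
theorem nv_hor {c : ℕ} (hc : ∀ r < n + 1, TO ε r c) (t : Tq n ε Λ κ) (sB : Smp B) (d : Dsc Λ B)
    (nb : ¬ Big B) {m : ℝ} (a : AmpOn Λ (m • B - κ)) (e : Dsc B D) (z : ZOn n Λ D) :
    ∃ g : K, g ≠ 0 ∧ ∀ Q, Hor (fld B) Q → 0 ≤ (dv g + (c : ℝ) • D) Q := by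
  obtain ⟨r, K', _, _, φ, f, k⟩ := Ga.exists_fb hF hV hL hG hK sB nb
  obtain ⟨-, y2, y3⟩ := fb_fa hN k t.ft.smp t.ft.big d t.hull t.elc (fb_amp k a)
  obtain ⟨h, h0, x⟩ := hc r (by have := k.dm; omega) K' k.ff _ _ y2 (fb_prn hM k e) (y3 D z)
  have := k.gf.des_sec k.ok (β := (c : ℝ) • D) (g := h⁻¹)
    (.inr (by rw [pb_smul, x, dv_inv, neg_add_cancel]))
  by_contra! y
  rw [show {f | f ≠ 0 ∧ 0 ≤ pb φ (dv f + (c : ℝ) • D)} = ∅ from eq_empty_of_forall_notMem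
    fun g u => by
      obtain ⟨Q, v, w⟩ := y g u.1
      obtain ⟨P, l⟩ := k.up Q v
      exact w.not_ge ((u.2 P).trans_eq (k.val l _))] at this
  simp [h0] at this

include hF hM hR hI hV hN hL hP hG in
/-- **SNVT** -/
theorem snvt_of : SNVT := fun h1 n => by
  induction n using Nat.strong_induction_on with | _ n ih => ?_
  intro eb w ba ε ε0
  obtain ⟨N₁, n1, h₁⟩ := nv_big hF hM hI hV hN hL hG h1 (eb n le_rfl) w ε0
  obtain ⟨c, c0, hc⟩ := unif (A := TO ε) (fun _ _ j _ b => b.mul j) (n + 1)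
    fun r x => Wv.tors hF hM hR hV hN hP (w r (Nat.lt_succ_iff.1 x)) ε ε0
  obtain ⟨δ, δ0, ba'⟩ := ba n le_rfl ε ε0
  obtain ⟨N₂, n2, h₂⟩ := unif (A := NV δ)
    (fun _ _ j _ b K _ _ hK Λ κ D t d s z => (b K hK Λ κ D t d s z).mul j) n
    fun k x => ih k x (fun m y => eb m (y.trans x.le)) (fun m y => w m (y.trans x.le))
      (fun m y => ba m (y.trans x.le)) δ δ0
  refine ⟨N₁ * (N₂ * (⌊δ⁻¹⌋₊).factorial * c), by positivity, fun K _ _ hK Λ κ D t d s z => ?_⟩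
  by_cases b : Big D
  · exact Nat.mul_comm _ N₁ ▸ (h₁ K hK Λ κ D t d s z b).mul _
  refine Nv.mul ?_ N₁
  obtain ⟨s₀, -, a⟩ := s.exists_ampOn
  obtain ⟨Γ, x, t1, t2, t3, t4⟩ := t.ft.ex
  rw [mx_empty, smul_zero] at t3 t4
  obtain ⟨Λ', κ', s₁, m, -, a1, a2, a3, -, a4, a5, a6, a7, a8, a9⟩ := h1 n K hK Λ κ s₀
    ⟨t.ft.smp, t.ft.big, d.trans a.dsc, Γ, 0, t1, t2, by rwa [zero_smul], by rwa [zero_smul]⟩
    t.qf t.hull.1 (t.pr hM hN hK).rat fun e y => b ((a.dsc.smul e).big (by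
      simpa using (t.neg_big hN hK).add_psef y))
  have t' : Tq n ε Λ' κ' := ⟨⟨a1.smp, a1.big, mx_empty (K := K) ▸ Dsc.zero a1.smp, Γ, 0, t1,
    fun P o => t2 P (a5 P o), by rwa [zero_smul], by rwa [zero_smul]⟩, a2,
    a3.congr fun P o => t.hull.2 P (a5 P o), elc_le t.elc a4⟩
  have e := a6.trans a.dsc'
  obtain ⟨g, g0, hg⟩ := nv_hor hF hM hV hN hL hG hK hc t' (smp_mx s₁) a1.des a7 a8 e
    fun P o => z P (a5 P o)
  have ok := hK.ok_sub (fld (mx s₁))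
  have hB := hL.ff _ K hK (mx s₁)
  have dm := Ga.dim_le hF hV hL hK (smp_mx s₁) a7
  rcases hk : dim (mx s₁) with _ | k <;> rw [hk] at hB dm
  · refine Nv.mul ⟨g, g0, fun P => hg P fun f y => ?_⟩ _
    obtain u | ⟨Q, -⟩ := ok P
    exacts [u ⟨f, y⟩, (Cb.no_pl hB Q).elim]
  obtain ⟨B, sB, bB, p⟩ := hL.down _ K hK _ (smp_mx s₁)
  obtain ⟨⟨κ₁, t₁⟩, on⟩ := ba' K hK Λ' κ' s₁ m k B t' a1.des a7 a8 a9 hB sB bB p
  obtain ⟨β, b1, b2⟩ := (dsc_pb_iff hK (cld_fld _)).1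
    (((Dsc.dv (smp_mx s₁) g).add (e.smul c)).congr_left (by simpa using neg_mem p))
  obtain ⟨γ, b3, b4⟩ := prn_down hK (cld_fld _) b2 fun P hP => by
    rw [Pi.sub_apply, hP.trv.pb, sub_zero]
    exact hg P hP
  have E : dv g + (c : ℝ) • D = pb (inc _) (β + γ) := by rw [pb_add, ← b4, add_sub_cancel]
  obtain ⟨h, h0, hh⟩ := h₂ k dm _ hB B κ₁ (((⌊δ⁻¹⌋₊).factorial : ℝ) • (β + γ)) t₁
    ((b1.add_prn b3).smul _) (((pb_smp_iff hK (cld_fld _)).1 (E ▸ add_comm _ (dv g) ▸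
      (s.smul (Nat.cast_nonneg c)).add_prn (dv_mem_Prn g))).smul (Nat.cast_nonneg _))
    fun u o => by
      obtain ⟨v, x1, x2, x3⟩ := on u o
      obtain ⟨y, hy⟩ := z v (a5 v x1)
      obtain ⟨e, he⟩ := Int.eq_ofNat_of_zero_le x2.e_pos.le
      have e0 : 0 < e := by have := x2.e_pos; omega
      obtain ⟨j, hj⟩ := Nat.dvd_factorial e0 (Nat.le_floor (a := δ⁻¹) (by
        rw [← one_div, le_div_iff₀' δ0, ← Int.cast_natCast, ← he]; exact x3))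
      have := congrFun E v
      rw [x2.pb, he, Pi.add_apply, Pi.smul_apply, hy, dv_apply] at this
      exact ⟨j * (v.ord g + c * y), by
        rw [hj, Pi.smul_apply, smul_eq_mul, Nat.cast_mul, mul_right_comm]
        push_cast at this ⊢
        rw [← this, mul_comm, smul_eq_mul]⟩
  refine ⟨inc _ h * g ^ (N₂ * (⌊δ⁻¹⌋₊).factorial), mul_ne_zero ((map_ne_zero _).2 h0)
    (pow_ne_zero _ g0), ?_⟩
  have := pb_nonneg (inc _) hh
  rw [pb_add, pb_smul, pb_smul, ← E, ok.pb_dv] at this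
  rw [dv_mul ((map_ne_zero _).2 h0) (pow_ne_zero _ g0), dv_pow]
  convert this using 1
  push_cast
  module

end rows

end Vale.Agent.P283B.Lg
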