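import Vale.Agent.P283B.LC.Gn
import Vale.Agent.P283B.LC.Plt
import Vale.Agent.P283B.Tool.Mmp
import Vale.Agent.P283B.ACC.Dlt

/-!
# P283B, block LC: the global case
-/

set_option linter.unusedVariables false

open Set

noncomputable section

namespace Vale.Agent.P283B.Lg

open P287D

variable {K : Type} [Field K] [Algebra ℂ K] {n : ℕ} {ε : ℝ} {Λ Λ' D Γ Γ' G : BD K} {g : K}

/-- an `ε`-lc `ℚ`-factorial model over any variety -/
theorem elm (hK : FF K (n + 1)) (hΛ : Smp Λ) (hb : Big Λ) {ε : ℚ} (e0 : (0 : ℝ) < ε)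
    (e1 : (ε : ℝ) ≤ 1) : ∃ Y Θ : BD K, Smp Y ∧ Big Y ∧ QF n Y ∧ Dsc Y Λ ∧ Dsc Y Θ ∧
      ELc n ε Θ All ∧ (∀ (Γ : BD K) (c : ℝ), Nef (c • Λ - Γ) → Bdy n Λ Γ → Θ ≤ Γ) ∧
      ∀ P, On n Y P → (On n Λ P ∧ ld (n + 1) Θ P = 1) ∨ ld (n + 1) Θ P = ε := by
  classical
  obtain ⟨s₁, -, a1⟩ := hΛ.exists_ampOn
  obtain ⟨s, κ, T, h, l, -, sκ, -, dΛ, ex⟩ :=
    Tl.exists_lsx hK hΛ hb finite_empty finite_empty (by simp)
  obtain ⟨b, hb'⟩ : ∃ b : Pl K → ℚ, b = fun P => if On n Λ P then 0 else 1 - ε := ⟨_, rfl⟩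
  have b0 : ∀ P, (0 : ℝ) ≤ b P ∧ (b P : ℝ) ≤ 1 - ε := fun P => by
    rw [hb']; dsimp only; split_ifs <;> simp [e1]
  have v := fun P => Acc.ls_dsc l (fun P => b P) (P := P)
  have lc : ELc n ε (κ + ∑ Q ∈ T, (b Q : ℝ) • h Q) All := fun Q _ =>
    l.ge (Acc.ls_sup l _) e0.le e1 fun P p _ => by
      rw [v P (l.on P p), if_pos p]; linarith [(b0 P).2]
  have bd := Acc.ls_bdy l (b := fun P => b P) fun P _ => (b0 P).1
  have dZ := sκ.1.add (l.hull_sum fun P => b P).1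
  have qZ := (CarZ.carQ l.kz).add (CarQ.sum T fun P _ => (CarZ.carQ (l.hz P)).qsmul (b P))
  generalize κ + ∑ Q ∈ T, (b Q : ℝ) • h Q = Z at v lc bd dZ qZ
  have kl : Klt (n + 1) Z := fun P => by
    linarith [show (ε : ℝ) ≤ dsc (n + 1) Z P + 1 from lc P trivial]
  have bH := a1.big_iff.1 hb
  have dH := dΛ.trans a1.1
  obtain ⟨δ, δ0, hδ⟩ := bH.opn dZ.car
  obtain ⟨m, hm⟩ := exists_rat_gt (max (n + 2 : ℝ) δ⁻¹)
  obtain ⟨m1, m2⟩ := max_lt_iff.1 hm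
  have m0 : (0 : ℝ) < m := (inv_pos.2 δ0).trans m2
  have ps : Psef (Z + (m : ℝ) • mx s₁) := by
    have := (hδ (m : ℝ)⁻¹ (by
      rw [abs_of_pos (inv_pos.2 m0)]; exact inv_le_of_inv_le₀ δ0 m2.le)).smul m0
    rw [smul_add, smul_inv_smul₀ m0.ne', add_comm] at this
    exact this.psef
  have qX := qZ.add ((carQ_mx s₁).qsmul m)
  have dX := dZ.add (dH.smul m)
  obtain ⟨L, N, z, qN, b1, b2, b3, b4, b5⟩ := Tl.minq hK l.smp l.big l.qf qX ⟨dX, Z, dZ.car, kl, bd,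
    by simpa using (nef_mx s₁).smul m0.le, by simpa using bH.smul m0⟩ ps
  have e : Z + (m : ℝ) • mx s₁ - Z - (n + 2 : ℝ) • mx s₁ = (m - (n + 2) : ℝ) • mx s₁ := by module
  have r := b4.trans (Api.rel n K hK _ _ Z N s₁ l.smp l.big qX dX dZ.car kl bd dH
    (e ▸ (nef_mx s₁).smul (sub_pos.2 m1).le) (e ▸ bH.smul (sub_pos.2 m1)) z qN)
  have dΘ : Dsc L (Z - N) := by
    convert b4.sub (r.smul m) using 1
    abel
  refine ⟨L, Z - N, b1, b2, b3, r.trans a1.dsc', dΘ, elc_le lc (sub_le_self _ z.nn),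
    fun Γ c x y => ?_, fun P o => ?_⟩
  · obtain ⟨a, -, k⟩ := (a1.1.smul (-m : ℝ)).exists_add
    have u := (z.smp.nef.add x).add (k a le_rfl).nef
    rw [show Z + (m : ℝ) • mx s₁ - N + (c • Λ - Γ) + ((-m : ℝ) • mx s₁ + a • Λ) =
      Z - N - Γ + (c + a) • Λ by module] at u
    refine sub_nonpos.1 (Api.neg.neg n K hK Λ _ _ hΛ hb (by
      simpa using sub_mem u.car (Submodule.smul_mem _ (c + a) hΛ.car)) u fun P o => ?_)
    have p1 := v P (Mm.on_mono res' hK hΛ dΛ o)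
    have p2 := y P o
    have p3 : 0 ≤ N P := z.nn P
    simp only [hb', if_pos o, Rat.cast_zero, neg_zero, ite_self, dsc, Pi.sub_apply] at p1 p2 ⊢
    linarith
  · obtain ⟨o1, o2⟩ := (b5 P).1 o
    have p1 := v P o1
    have p2 : ld (n + 1) (Z - N) P = dsc (n + 1) Z P + 1 := by simp [ld, dsc, o2]
    rw [p2, p1, hb']
    by_cases w : On n Λ P
    · exact .inl ⟨w, by simp [w]⟩
    · exact .inr (by simp [w, (ex P o1).resolve_left w])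

theorem ld_le (h : Γ ≤ Γ') (P : Pl K) : ld n Γ' P ≤ ld n Γ P := by
  have := h P
  simp only [ld, dsc, Pi.sub_apply]
  linarith

theorem lcc_le {N : ℕ} (h : LcC n N Γ' All g) (e : Γ ≤ Γ') : LcC n N Γ All g :=
  ⟨⟨h.1.1, fun P a => (mul_le_mul_of_nonneg_left (e P) (Nat.cast_nonneg N)).trans (h.1.2 P a)⟩, h.2⟩

theorem rel_smp (hK : FF K (n + 1)) (r : Rel n Λ ∅ Γ) : Smp (-Γ) := by
  obtain ⟨Γ₀, c, t1, t2, t3, t4⟩ := r.ft.ex
  obtain ⟨c', x⟩ := r.nef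
  rw [mx_empty, smul_zero, zero_sub] at t3 t4 x
  exact Ba.Fg.bpf hK r.pr.big r.pr.des.neg (by simpa using neg_mem t3.car) t1 t2
    (sub_eq_add_neg _ Γ₀ ▸ x.add t3) (sub_eq_add_neg _ Γ₀ ▸ x.psef.add_big t4) x

/-- all real complements are lc -/
def Ex (n : ℕ) (Γ : BD K) : Prop := ∀ G, Rep (-Γ) G → ELc n 0 (Γ + G) All

theorem Ex.mono (h : Ex n Γ) (e : Γ ≤ Γ') : Ex n Γ' := fun G r => by
  have := h (G + (Γ' - Γ)) ⟨add_nonneg r.1 (sub_nonneg.2 e), by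
    convert r.2 using 1
    abel⟩
  rwa [show Γ + (G + (Γ' - Γ)) = Γ' + G by abel] at this

theorem Ex.hor (h : Ex n Γ) (s : Smp (-Γ)) {P : Pl K} (e : ld (n + 1) Γ P = 0) :
    Hor (fld (-Γ)) P := hor_of_rep s.eff fun G r => le_antisymm (by
  have := h G r P trivial
  simp only [ld, dsc, Pi.sub_apply, Pi.add_apply] at this e
  linarith) (r.1 P)

theorem Ex.lcc (h : Ex n Γ) {N : ℕ} (h0 : 0 < N) (k : Nv N (-Γ)) : ∃ g, LcC n N Γ All g := by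
  obtain ⟨g, g0, k⟩ := k
  have p : (0 : ℝ) < N := Nat.cast_pos.2 h0
  refine ⟨g, Vk.sc_iff.2 ⟨g0, .inr k⟩, fun P _ => ?_⟩
  have := h ((N : ℝ)⁻¹ • (dv g + (N : ℝ) • -Γ)) ⟨smul_nonneg (inv_pos.2 p).le k, by
    rw [smul_add, inv_smul_smul₀ p.ne', add_sub_cancel_right]
    exact Submodule.smul_mem _ _ (dv_mem_Prn g)⟩ P trivial
  rw [smul_add, inv_smul_smul₀ p.ne', add_comm Γ, neg_add_cancel_right] at this
  simp only [ld, dsc, Pi.sub_apply, Pi.smul_apply, dv_apply, smul_eq_mul] at this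
  rw [← inv_mul_le_iff₀ p]
  linarith

/-- the log discrepancies have a gap -/
theorem gap (nv : NVT n) {q : ℕ} (hq : 0 < q) {δ : ℝ} (d0 : 0 < δ) : ∃ N : ℕ, 0 < N ∧
    ForN n fun K _ _ => ∀ Λ Γ : BD K, Rel n Λ ∅ Γ → Cf n Λ Γ (Frq q) All →
      (∀ P, ld (n + 1) Γ P = 0 ∨ δ < ld (n + 1) Γ P) → Nv N (-Γ) := by
  obtain ⟨ε, e0, e1⟩ := exists_rat_btwn (lt_min d0 one_pos)
  obtain ⟨e1, e2⟩ := lt_min_iff.1 e1
  obtain ⟨N, N0, nv⟩ := nv ε e0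
  refine ⟨N * q, Nat.mul_pos N0 hq, fun K _ _ hK Λ Γ r cf h => ?_⟩
  obtain ⟨Y, Θ, y1, y2, y3, y4, y5, y6, y7, y8⟩ := elm hK r.pr.smp r.pr.big e0 e2.le
  obtain ⟨κ, c⟩ := Gs.exists_hull Api.neg hK y1 y3
    (Gs.isb_fin hK Api.neg y1 y2 (Api.mod.isb n K hK).2.1)
  obtain ⟨Γ₀, c₀, t1, t2, t3, t4⟩ := r.ft.ex
  obtain ⟨c', x⟩ := r.nef
  have u : ∀ (Γ : BD K) (c : ℝ), Nef (c • mx ∅ - Γ) → Bdy n Λ Γ → Θ ≤ Γ := fun Γ c a =>
    y7 Γ 0 (by simpa [mx_empty] using a)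
  obtain ⟨g, g0, k⟩ := nv K hK Y κ ((q : ℝ) • -Γ) ⟨⟨y1, y2, y4.trans r.ft.des, Γ₀, c₀, t1,
    fun P o => (y8 P o).elim (fun w => t2 P w.1) fun w => by
      linarith [show dsc (n + 1) Γ₀ P + 1 ≤ _ from ld_le (u Γ₀ c₀ t3 t2) P], t3, t4⟩, y3, c,
    elc_le y6 (sub_nonneg.1 (Gs.det Api.neg hK y1 y2 (y5.sub c.1) fun P o => by
      have := y8 P o
      simp only [ld, dsc, Pi.sub_apply, c.2 P o] at this ⊢
      rcases this with w | w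
      exacts [by linarith [w.2], by linarith]))⟩
    ((y4.trans r.pr.des).neg.smul _) ((rel_smp hK r).smul (Nat.cast_nonneg q))
    fun P o => (y8 P o).elim (fun w => Vk.zon hq cf P w.1) fun w => by
      have a := (h P).resolve_right (by linarith [ld_le (n := n + 1) (u Γ c' x r.pr.bdy) P])
      obtain ⟨z, hz⟩ := (Api.mod.isb n K hK).2.2 P
      simp only [ld, dsc, Pi.sub_apply, hz] at a
      exact ⟨-(q * (z + 1)), by
        simp only [Pi.smul_apply, Pi.neg_apply, smul_eq_mul]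
        push_cast
        rw [show Γ P = z + 1 by linarith, mul_neg]⟩
  exact ⟨g, g0, by rwa [Nat.cast_mul, mul_smul]⟩

theorem cf_phi {q : ℕ} (hq : 0 < q) (r : Rel n Λ ∅ Γ) (lc : ELc n 0 Γ All)
    (cf : Cf n Λ Γ (Frq q) All) : Cf n Λ Γ (Phi q) All := fun P o _ =>
  phi_of_frq hq (cf P o trivial) (by linarith [r.pr.bdy P o, show ld _ Γ P = dsc (n + 1) Γ P + 1
    from rfl]) (by linarith [lc P trivial])

theorem one_frq {q : ℕ} (hq : 0 < q) {P : Pl K} (h : ld n Γ P = 0) : 1 - ld n Γ P ∈ Frq q :=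
  ⟨q, by rw [h, sub_zero, Int.cast_natCast, div_self (Nat.cast_pos.2 hq).ne']⟩

theorem ld_eq {P : Pl K} (h : Γ' P = Γ P) : ld n Γ' P = ld n Γ P := by
  simp only [ld, dsc, Pi.sub_apply, h]

/-- the case in which all real complements are lc -/
theorem exc (ra : RAISE n) (ga : Ga.GAF (n + 1)) (nv : NVT n) {q : ℕ} (hq : 0 < q) :
    ∃ N : ℕ, 0 < N ∧ ForN n fun K _ _ => ∀ Λ Γ : BD K, Rel n Λ ∅ Γ → ELc n 0 Γ All →
      Cf n Λ Γ (Frq q) All → Ex n Γ → ∃ g, LcC n N Γ All g := by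
  obtain ⟨δ₁, d1, ra⟩ := ra q hq
  obtain ⟨δ₂, d2, ga⟩ := ga 1 _ one_pos (Wv.den_phi hq)
  obtain ⟨N, N0, nv⟩ := gap nv hq (lt_min d1 d2)
  refine ⟨N, N0, fun K _ _ hK Λ Γ r lc cf ex => ?_⟩
  induction hd : dim (-Γ) using Nat.strong_induction_on generalizing Λ Γ with | _ d ih => ?_
  have s := rel_smp hK r
  have cf' := cf_phi hq r lc cf
  by_cases x : ∃ v, ¬ Hor (fld (-Γ)) v ∧ ld (n + 1) Γ v ≤ δ₁
  · obtain ⟨v, v1, v2⟩ := x
    obtain ⟨Λ', Γ', r', lc', le, z, on⟩ := ra K hK Λ Γ {v} r lc cf' (finite_singleton v)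
      (by simpa using v2)
    obtain ⟨g, hg⟩ := ih _ (hd ▸ not_le.1 fun w => v1 (fld_eq_of_dim hK (fld_mono (neg_le_neg le)) w
      ▸ (ex.mono le).hor (rel_smp hK r') (z v rfl))) Λ' Γ' r' lc' (fun P o _ => (on P o).elim
        (fun w => one_frq hq (z P w)) fun w => ld_eq (n := n + 1) w.2 ▸ cf P w.1 trivial)
      (ex.mono le) rfl
    exact ⟨g, lcc_le hg le⟩
  push Not at x
  refine ex.lcc N0 (nv K hK Λ Γ r cf fun P => ?_)
  by_cases y : Hor (fld (-Γ)) P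
  · exact (ga n K hK Λ (-Γ) Γ 0 r.pr.smp r.pr.big s r.pr.des.neg (Nat.le_add_right _ _) .zero
      (by simp) ⟨1, by simpa using Nef.zero,
        by simpa [sub_eq_add_neg] using s.nef.add s.nef⟩
      (fun P _ => neg_le_iff_add_nonneg.2 (lc P trivial)) (fun P _ o =>
        ⟨by linarith [r.pr.bdy P o], .inr (.inl (cf' P o trivial))⟩) P y).imp
      (fun w => by rw [ld, w, neg_add_cancel]) (min_le_right _ _).trans_lt
  · exact .inr ((min_le_left _ _).trans_lt (x P y))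

/-- **LCG** from the leaves -/
theorem lcg_of (ra : RAISE n) (ln : LCN n) (ga : Ga.GAF (n + 1)) (nv : NVT n) : LCG n :=
  fun q hq => by
  obtain ⟨δ, d0, h0⟩ := ra q hq
  obtain ⟨q', q0, dn⟩ := Wv.den_phi hq δ d0
  obtain ⟨N₁, n1, h1⟩ := ln q' q0
  obtain ⟨N₂, n2, h2⟩ := exc ra ga nv q0
  refine ⟨N₁ * N₂, Nat.mul_pos n1 n2, fun K _ _ hK Λ Γ r cf lc => ?_⟩
  obtain ⟨Λ', Γ', r', lc', le, z, on⟩ := h0 K hK Λ Γ
    {P | On n Λ P ∧ ld (n + 1) Γ P ≠ 1 ∧ ld (n + 1) Γ P ≤ δ} r lc cf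
    (((Gs.isb_fin hK Api.neg r.pr.smp r.pr.big (Api.mod.isb n K hK).2.1).union
      (Gs.isb_fin hK Api.neg r.pr.smp r.pr.big ((Api.mod.isb n K hK).1 Γ r.pr.des.car))).subset
      fun P x => by_contra fun y => x.2.1 (by
        simp only [mem_union, mem_ofPred_eq, x.1, true_and, not_or, not_not] at y
        simp [ld, dsc, y.1, y.2])) fun P x => x.2.2
  have cf' : Cf n Λ' Γ' (Frq q') All := fun P o _ => by
    by_cases w : On n Λ P ∧ ld (n + 1) Γ P ≠ 1 ∧ ld (n + 1) Γ P ≤ δ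
    · exact one_frq q0 (z P w)
    obtain ⟨a, b⟩ := (on P o).resolve_left w
    rw [ld_eq b]
    by_cases u : ld (n + 1) Γ P = 1
    · exact ⟨0, by simp [u]⟩
    obtain ⟨j, hj⟩ := dn _ (cf P a trivial) (not_lt.1 fun t => w ⟨a, u, t.le⟩)
    exact ⟨q' - j, by
      rw [eq_div_iff (Nat.cast_pos.2 q0).ne']; push_cast; linarith⟩
  by_cases e : Ex n Γ'
  · obtain ⟨g, hg⟩ := h2 K hK Λ' Γ' r' lc' cf' e
    exact ⟨_, lcc_le (Vk.lcc_pow hg N₁) le⟩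
  · obtain ⟨G, a, b⟩ : ∃ G, Rep (-Γ') G ∧ ¬ ELc n 0 (Γ' + G) All := by simpa [Ex] using e
    obtain ⟨g, hg⟩ := h1 K hK Λ' Γ' G r' lc' cf' a b
    exact ⟨_, lcc_le (Nat.mul_comm N₂ N₁ ▸ Vk.lcc_pow hg N₂) le⟩

end Vale.Agent.P283B.Lg
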