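import Vale.Agent.P283B.Spec

/-!
# P283B, block LC: the strong lifting statement, arithmetic of hyperstandard coefficients
-/

open Set

noncomputable section

namespace Vale.Agent.P283B

open P287D

/-- **LCS**: lifting of complements from a place `S` which is an lc place of a larger lc pair `Ω`
and the only place over the point which is not klt for an auxiliary generalised pair `Γ₁` -/
def LCS (n : ℕ) : Prop := ∀ q : ℕ, 0 < q → ∃ N : ℕ, 0 < N ∧ ForN n fun K _ _ =>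
  ∀ (Λ Γ Ω Γ₁ : BD K) (s₀ : Finset K) (R₀ S : Pl K) (c c' : ℝ), FTo n Λ s₀ → Dsc Λ Γ →
    Cf n Λ Γ (Phi q) (Ov s₀ R₀) → Nef (c' • mx s₀ - Ω) → (∀ P, Ov s₀ R₀ P → Γ P ≤ Ω P) →
    ELc n 0 Ω (Ov s₀ R₀) → Ov s₀ R₀ S → ld (n + 1) Ω S = 0 → Nef (c • mx s₀ - Γ₁) →
    Big (c • mx s₀ - Γ₁) → (∀ P, On n Λ P → Ov s₀ R₀ P → ld (n + 1) Γ₁ P ≤ 1) →
    ld (n + 1) Γ₁ S = 0 → (∀ P, P ≠ S → Ov s₀ R₀ P → 0 < ld (n + 1) Γ₁ P) →
    ∃ g, LcC n N Γ (Ov s₀ R₀) g

/-- the strong lifting step -/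
def SLCS : Prop := ∀ n, Lt LC n → LCS n

theorem slcp_of (h : SLCS) : SLCP := fun n l q hq =>
  let ⟨N, N0, k⟩ := h n l q hq
  ⟨N, N0, fun K _ _ hK Λ Γ Γ₁ s₀ S c r _ a b d e _ f g i j _ =>
    let ⟨c', x⟩ := r.nef
    k K hK Λ Γ Γ Γ₁ s₀ S S c c' r.ft r.pr.des a x (fun _ _ => le_rfl) b (fun _ _ y => y) d e f
      (fun P y _ => add_le_of_nonpos_left (g P y)) i j⟩

namespace Lcb

section arith

variable {q : ℕ} {x y : ℝ}

theorem phi_le (h : x ∈ Phi q) : x ≤ 1 := by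
  obtain ⟨j, m, -, -, rfl⟩ := h
  exact sub_le_self _ (by positivity)

theorem phi_nn (hq : 0 < q) (h : x ∈ Phi q) : 0 ≤ x := by
  obtain ⟨j, m, a, b, rfl⟩ := h
  have : (j : ℝ) ≤ q * m := by exact_mod_cast a.trans (Nat.le_mul_of_pos_right q b)
  exact sub_nonneg.2 ((div_le_one (by positivity)).2 this)

theorem phi_zero (hq : 0 < q) : (0 : ℝ) ∈ Phi q :=
  ⟨q, 1, le_rfl, one_pos, by rw [Nat.cast_one, mul_one, div_self (by positivity), sub_self]⟩

theorem phi_one : (1 : ℝ) ∈ Phi q := ⟨0, 1, Nat.zero_le _, one_pos, by simp⟩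

theorem phi_add1 (hq : 0 < q) (h : x ∈ Phi q) {j : ℕ} (hj : j ≤ q) (e : x + (1 - j / q) ≤ 1) :
    x + (1 - j / q) ∈ Phi q := by
  obtain ⟨i, m, a, b, rfl⟩ := h
  obtain ⟨l, rfl⟩ := Nat.exists_eq_add_of_le hj
  have q0 : (0 : ℝ) < (j + l : ℕ) := by exact_mod_cast hq
  have m0 : (0 : ℝ) < m := by exact_mod_cast b
  have e1 : (1 : ℝ) - j / (j + l : ℕ) = (l * m : ℕ) / ((j + l : ℕ) * m) := by
    field_simp; push_cast; ring
  rw [e1] at e ⊢
  have k : l * m ≤ i := by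
    have : ((l * m : ℕ) : ℝ) / ((j + l : ℕ) * m) ≤ i / ((j + l : ℕ) * m) := by linarith
    exact_mod_cast (div_le_div_iff_of_pos_right (by positivity)).1 this
  exact ⟨i - l * m, m, (Nat.sub_le _ _).trans a, b, by rw [Nat.cast_sub k]; ring⟩

theorem phi_half (hq : 0 < q) {j m : ℕ} (a : j ≤ q) (b : 2 ≤ m) :
    (1 / 2 : ℝ) ≤ 1 - j / (q * m) := by
  have : (j : ℝ) / (q * m) ≤ 1 / 2 := by
    rw [div_le_div_iff₀ (by positivity) two_pos]
    have : j * 2 ≤ 1 * (q * m) := by nlinarith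
    exact_mod_cast this
  linarith

theorem phi_add (hq : 0 < q) (h : x ∈ Phi q) (h' : y ∈ Phi q) (e : x + y ≤ 1) : x + y ∈ Phi q := by
  obtain ⟨i, m, a, b, hx⟩ := id h
  obtain ⟨j, l, c, d, hy⟩ := id h'
  rcases (Nat.succ_le_of_lt d).eq_or_lt with l1 | l2
  · rw [hy, ← l1] at e ⊢
    simpa using phi_add1 hq h c (by simpa using e)
  rcases (Nat.succ_le_of_lt b).eq_or_lt with m1 | m2
  · rw [add_comm, hx, ← m1] at e ⊢
    simpa using phi_add1 hq h' a (by simpa using e)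
  have := phi_half hq a m2
  have := phi_half hq c l2
  rw [show x + y = 1 by linarith]
  exact phi_one

theorem phi_nsmul (hq : 0 < q) (h : x ∈ Phi q) (k : ℕ) (e : x * k ≤ 1) : x * k ∈ Phi q := by
  induction k with
  | zero => simpa using phi_zero hq
  | succ k ih =>
    rw [Nat.cast_succ, mul_add, mul_one] at e ⊢
    exact phi_add hq (ih (by linarith [phi_nn hq h])) h e

theorem phi_sum (hq : 0 < q) {ι : Type*} (T : Finset ι) {a : ι → ℝ}
    (h : ∀ i ∈ T, 0 ≤ a i ∧ (a i ≤ 1 → a i ∈ Phi q)) (e : ∑ i ∈ T, a i ≤ 1) :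
    ∑ i ∈ T, a i ∈ Phi q := by
  classical
  induction T using Finset.induction_on with
  | empty => simpa using phi_zero hq
  | insert i T hi ih =>
    rw [Finset.sum_insert hi] at e ⊢
    have k := fun j hj => h j (Finset.mem_insert_of_mem hj)
    have a0 := h i (Finset.mem_insert_self _ _)
    have s0 := Finset.sum_nonneg fun j hj => (k j hj).1
    exact phi_add hq (a0.2 (by linarith)) (ih k (by linarith [a0.1])) e

theorem phi_div (h : x ∈ Phi q) {r : ℕ} (hr : 0 < r) : 1 - 1 / (r : ℝ) + x / r ∈ Phi q := by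
  obtain ⟨j, m, a, b, rfl⟩ := h
  refine ⟨j, m * r, a, Nat.mul_pos b hr, ?_⟩
  have : (r : ℝ) ≠ 0 := by positivity
  rw [Nat.cast_mul, ← mul_assoc, ← div_div (j : ℝ) (q * m), sub_div]
  ring

theorem two_lifts {N m u v : ℤ} (hN : Even N) (hm : 2 ≤ m) (a : u * m ≤ N + 1)
    (b : v * m ≤ 2 * N + 1) : (u + v) * m ≤ 3 * N := by
  obtain ⟨k, rfl⟩ := hN
  rcases a.eq_or_lt with a | a
  · have m3 : 3 ≤ m := by
      rcases hm.eq_or_lt with rfl | h
      · omega
      · omega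
    have : v ≤ 2 * u - 1 := by
      by_contra h
      have : 2 * u ≤ v := by omega
      nlinarith
    nlinarith
  rcases b.eq_or_lt with b | b
  · have m3 : 3 ≤ m := by
      rcases hm.eq_or_lt with rfl | h
      · omega
      · omega
    have v1 : 2 * u ≠ v := fun e => by
      rw [← e, mul_assoc] at b
      omega
    have : 2 * u ≤ v - 1 := by
      by_contra h
      have : v + 1 ≤ 2 * u := by omega
      nlinarith
    nlinarith
  · nlinarith

/-- the product of the lifts of index `N` and `2 N` is monotone -/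
theorem phi_lift (hq : 0 < q) (h : x ∈ Phi q) {c : ℕ} {k l : ℤ} (k0 : 0 ≤ k) (l0 : 0 ≤ l)
    (a : ((2 * q * c : ℕ) + 1) * x ≤ k + 1) (b : (2 * (2 * q * c : ℕ) + 1) * x ≤ l + 1) :
    3 * (2 * q * c : ℕ) * x ≤ k + l := by
  obtain ⟨j, m, hj, hm, rfl⟩ := h
  have q0 : (0 : ℝ) < q := by exact_mod_cast hq
  have m0 : (0 : ℝ) < m := by exact_mod_cast hm
  have key : ∀ (i : ℕ) (z : ℤ), (i * (2 * q * c : ℕ) + 1) * (1 - j / (q * m) : ℝ) ≤ z + 1 →
      (i * (2 * q * c) - z) * m * q ≤ (i * (2 * q * c) + 1) * j := fun i z e => by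
    have : ((i * (2 * q * c) - z) * m * q : ℝ) ≤ (i * (2 * q * c) + 1) * j := by
      have e' := mul_le_mul_of_nonneg_right e (mul_pos q0 m0).le
      rw [mul_assoc, sub_mul, div_mul_cancel₀ _ (mul_pos q0 m0).ne'] at e'
      push_cast at e'
      nlinarith
    exact_mod_cast this
  have a' := key 1 k (by simpa using a)
  have b' := key 2 l (by simpa using b)
  have fin : ((2 * q * c - k) + (2 * (2 * q * c) - l)) * m ≤ 3 * (2 * c * j : ℤ) →
      3 * (2 * q * c : ℕ) * (1 - j / (q * m) : ℝ) ≤ k + l := fun e => by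
    have e' : (((2 * q * c - k) + (2 * (2 * q * c) - l)) * m : ℝ) ≤ 3 * (2 * c * j) := by
      exact_mod_cast e
    rw [show (3 * (2 * q * c : ℕ) * (1 - j / (q * m)) : ℝ) =
      3 * (2 * q * c) - 3 * (2 * c * j) / m by push_cast; field_simp]
    rw [sub_le_comm, le_div_iff₀ m0]
    linarith
  have q1 : (0 : ℤ) < q := by exact_mod_cast hq
  refine fin ?_
  rcases hj.eq_or_lt with rfl | hj
  · rcases (Nat.succ_le_of_lt hm).eq_or_lt with m1 | m2
    · rw [← m1]
      push_cast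
      linarith
    · have := two_lifts (N := 2 * j * c) (m := m) (u := 2 * j * c - k) (v := 2 * (2 * j * c) - l)
        ⟨j * c, by ring⟩ (by exact_mod_cast m2) (le_of_mul_le_mul_right (by simpa using a') q1)
        (le_of_mul_le_mul_right (by simpa using b') q1)
      linarith
  · have j1 : (j : ℤ) < q := by exact_mod_cast hj
    have a2 : (2 * q * c - k) * m < 2 * c * j + 1 := lt_of_mul_lt_mul_right (by
      push_cast at a'; nlinarith) q1.le
    have b2 : (2 * (2 * q * c) - l) * m < 2 * (2 * c * j) + 1 := lt_of_mul_lt_mul_right (by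
      push_cast at b'; nlinarith) q1.le
    linarith

end arith

end Lcb

end Vale.Agent.P283B
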