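import Vale.Agent.P283B.LC.Loc
import Vale.Agent.P287D.Gs.Ful

/-!
# P283B, block LC: complements lift from a globally plt divisor of a `ℚ`-factorial model
-/

open Set Filter Topology
open Vale.Agent.P297Z.Pl

noncomputable section

namespace Vale.Agent.P283B.Lcb

open P287D

variable {n q : ℕ} {K : Type} [Field K] [Algebra ℂ K] {Λ H Γ Γ₂ G β γ : BD K} {P R R₀ S : Pl K}
  {s : Finset K} {c : ℝ}

/-- the normal form: `S` is a divisor of a `ℚ`-factorial model, and `Γ₂` is plt everywhere -/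
structure NF (n : ℕ) (Λ Γ Γ₂ : BD K) (s : Finset K) (R₀ S : Pl K) : Prop where
  rel : Rel n Λ s Γ
  qf : QF n Λ
  on : On n Λ S
  ov : Ov s R₀ S
  z : dsc (n + 1) Γ S = -1
  lc : ∀ P, Ov s R₀ P → -1 ≤ dsc (n + 1) Γ P
  ex : ∃ c : ℝ, Nef (c • mx s - Γ₂) ∧ Big (c • mx s - Γ₂) ∧ Big (res S (c • mx s - Γ₂))
  bdy : Bdy n Λ Γ₂
  z2 : dsc (n + 1) Γ₂ S = -1
  plt : ∀ P, P ≠ S → -1 < dsc (n + 1) Γ₂ P

theorem nef_of (d : Dsc Λ H) (h : Nef (c • H - Γ)) : ∃ c' : ℝ, Nef (-Γ + c' • Λ) := by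
  obtain ⟨e, -, k⟩ := (d.smul c).neg.exists_add
  exact ⟨e, by rw [show -Γ + e • Λ = c • H - Γ + (-(c • H) + e • Λ) by abel]
               exact h.add (k e le_rfl).nef⟩

theorem qf_exp (hK : FF K (n + 1)) (hb : Big Λ) (hq : QF n Λ) (hβ : Dsc Λ β) :
    ∃ (T : Finset (Pl K)) (v : Pl K → BD K), (∀ R ∈ T, On n Λ R ∧ β R ≠ 0 ∧ Hull n Λ R.δ (v R)) ∧
      β = ∑ R ∈ T, β R • v R := by
  classical
  choose! v _ hv using hq
  have hZ := Pr.fin_on res' hK hβ.smp hb ((Ba.mod.isb n K hK).1 β hβ.car)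
  have m := fun R (h : R ∈ hZ.toFinset) => hZ.mem_toFinset.1 h
  refine ⟨hZ.toFinset, v, fun R h => ⟨(m R h).1, (m R h).2, hv R (m R h).1⟩,
    Pr.hart_eq res' hK hβ.smp hb hβ (Dsc.sum hβ.smp _ fun P hP => (hv P (m P hP).1).1.smul _)
      fun Q hQ => ?_⟩
  rw [Finset.sum_apply, Finset.sum_eq_single Q]
  · simp [(hv Q hQ).2 Q hQ, Pl.δ_self]
  · intro P hP h
    simp [(hv P (m P hP).1).2 Q hQ, Pl.δ_ne h.symm]
  · intro h
    have : β Q = 0 := by simpa [hQ] using h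
    simp [this]

theorem hull_nn (hK : FF K (n + 1)) (hb : Big Λ) (h : Hull n Λ R.δ β) : 0 ≤ β :=
  Pr.hart res' hK h.1.smp hb h.1 fun Q hQ => h.2 Q hQ ▸ R.δ_nonneg Q

/-- **ADJ**: the coefficients of the different are hyperstandard -/
theorem cf_adj (hq : 0 < q) (hK : FF K (n + 2)) (hb : Big Λ) (qf : QF (n + 1) Λ)
    (hO : On (n + 1) Λ S) (d : Dsc Λ Γ) (b : Bdy (n + 1) Λ Γ) (z : dsc (n + 2) Γ S = -1)
    (h2 : Nef (-Γ₂ + c • Λ)) (b2 : Bdy (n + 1) Λ Γ₂) (z2 : dsc (n + 2) Γ₂ S = -1) {Q : Pl S.κ}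
    (hQ : On n (res S Λ) Q) (k2 : -1 < dsc (n + 1) (adj (n + 1) S Γ₂) Q)
    (k : -1 ≤ dsc (n + 1) (adj (n + 1) S Γ) Q)
    (cf : ∀ R β, On (n + 1) Λ R → R ≠ S → Hull (n + 1) Λ R.δ β → 0 < res S β Q →
      1 - ld (n + 2) Γ R ∈ Phi q) : 1 - ld (n + 1) (adj (n + 1) S Γ) Q ∈ Phi q := by
  classical
  have hΛ := d.smp
  obtain ⟨κ, hκ⟩ := Gs.exists_hull Api.neg hK (Z := cn K (n + 2) + S.δ) hΛ qf
    (((Pr.fin_on res' hK hΛ hb (Ba.mod.isb _ K hK).2.1).insert S).subset fun P hP => by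
      by_cases e : P = S
      · exact .inl e
      · exact .inr ⟨hP.1, by simpa [Pl.δ_ne e] using hP.2⟩)
  have c2 : Γ₂ ∈ Car K := by simpa using sub_mem h2.car ((Car K).smul_mem c hΛ.car)
  have val : ∀ X : BD K, dsc (n + 2) X S = -1 → ∀ R, On (n + 1) Λ R →
      (X - κ) R = if R = S then 0 else -dsc (n + 2) X R := fun X x R hR => by
    rw [Pi.sub_apply, hκ.2 R hR, Pi.add_apply]
    split_ifs with e
    · rw [e, S.δ_self]; simp only [dsc, Pi.sub_apply] at x; linarith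
    · rw [Pl.δ_ne e]; simp [dsc]
  have le : 0 ≤ Γ₂ - κ := sub_nonneg.2 (neg_le_neg_iff.1
    (Pr.le_hull res' hK hΛ hb h2 hκ.1.neg fun R hR => by
      have := val Γ₂ z2 R hR
      have := b2 R hR
      simp only [Pi.sub_apply, Pi.neg_apply] at *
      split_ifs at * <;> linarith))
  have ad : ∀ X ∈ Car K, dsc (n + 1) (adj (n + 1) S X) Q =
      dsc (n + 1) (adj (n + 1) S κ) Q - res S (X - κ) Q := fun X x => by
    have := (a4 _ K hK S κ hκ.1.car _ (sub_mem x hκ.1.car)).1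
    rw [add_sub_cancel] at this
    rw [this, Pr.dsc_add]
  obtain ⟨r, r0, e, all⟩ := a6 n K hK Λ S hΛ hb hO κ hκ Q hQ (by
    have := res_nonneg hK S (sub_mem c2 hκ.1.car) le (by rw [val Γ₂ z2 S hO, if_pos rfl]) Q
    rw [ad Γ₂ c2] at k2
    exact k2.trans_le (sub_le_self _ this))
  obtain ⟨T, v, hT, ex⟩ := qf_exp hK hb qf (d.sub hκ.1)
  have ne : ∀ R ∈ T, R ≠ S := fun R h e => (hT R h).2.1 (by rw [val Γ z R (hT R h).1, if_pos e])
  have vn : ∀ R ∈ T, 0 ≤ res S (v R) Q := fun R h => res_nonneg hK S (hT R h).2.2.1.car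
    (hull_nn hK hb (hT R h).2.2) (((hT R h).2.2.2 S hO).trans (Pl.δ_ne (ne R h).symm)) Q
  have r1 : (0 : ℝ) < r := Nat.cast_pos.2 r0
  have km : ∀ R ∈ T, ∃ j : ℕ, res S (v R) Q = j / r := fun R h => by
    obtain ⟨j, hj⟩ := (all (v R) (hT R h).2.2.1 fun P hP => by
      rw [(hT R h).2.2.2 P hP, Pl.δ]
      split_ifs
      exacts [⟨1, by simp⟩, ⟨0, by simp⟩]).1
    have : (0 : ℝ) ≤ j := by simpa [hj, le_div_iff₀ r1] using vn R h
    lift j to ℕ using (by exact_mod_cast this)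
    exact ⟨j, by simpa using hj⟩
  choose! j hj using km
  have co : ∀ R ∈ T, (Γ - κ) R = 1 - ld (n + 2) Γ R := fun R h => by
    rw [val Γ z R (hT R h).1, if_neg (ne R h), ld]; ring
  have sm : res S (Γ - κ) Q = (∑ R ∈ T, (1 - ld (n + 2) Γ R) * j R) / r := by
    rw [ex, res_sum hK S T fun R h => Submodule.smul_mem _ _ (hT R h).2.2.1.car, Finset.sum_apply,
      Finset.sum_div]
    refine Finset.sum_congr rfl fun R h => ?_
    rw [res_smul hK S _ (hT R h).2.2.1.car, Pi.smul_apply, hj R h, co R h, smul_eq_mul, mul_div_assoc]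
  rw [ad Γ d.car, e, sm] at k
  rw [ld, ad Γ d.car, e, sm, show ∀ a b : ℝ, 1 - (-(1 - a) - b + 1) = 1 - a + b from
    fun _ _ => by ring]
  refine phi_div (phi_sum hq T (fun R h => ⟨mul_nonneg ?_ (j R).cast_nonneg, fun x => ?_⟩)
    ((div_le_div_iff_of_pos_right r1).1 (by linarith))) r0
  · have := b R (hT R h).1
    rw [ld]; linarith
  · rcases (j R).eq_zero_or_pos with y | y
    · rw [y, Nat.cast_zero, mul_zero]; exact phi_zero hq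
    · exact phi_nsmul hq (cf R _ (hT R h).1 (ne R h) (hT R h).2.2 (by
        rw [hj R h]; positivity)) _ x

theorem res_rel (hK : FF K (n + 1)) (hΓ : Γ ∈ Car K) (S : Pl K) (s : Finset K) (c : ℝ) :
    c • mx (S.rs s) - adj n S Γ - res S (c • mx s - Γ) ∈ Prn S.κ := by
  rw [res_sub hK S (Submodule.smul_mem _ _ (mx_mem_Car s)) hΓ, res_smul hK S c (mx_mem_Car s),
    res_mx hK, sub_sub_sub_cancel_left, ← neg_sub]
  exact neg_mem (a1 n K hK S Γ hΓ).2.1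

namespace NF

theorem car (h : NF n Λ Γ Γ₂ s R₀ S) : Γ₂ ∈ Car K := let ⟨_, a, _⟩ := h.ex; car_of a

theorem klt (hK : FF K (n + 1)) (h : NF n Λ Γ Γ₂ s R₀ S) : Klt n (adj n S Γ₂) :=
  (a2l n K hK S Γ₂ h.car h.z2).2.2.1 h.plt

theorem rel_adj (hK : FF K (n + 2)) (h : NF (n + 1) Λ Γ Γ₂ s R₀ S) :
    Rel n (res S Λ) (S.rs s) (adj (n + 1) S Γ) := by
  have p := h.rel.pr
  have a := res_smp hK S p.smp
  have b := (on_iff_big hK S p.smp.nef).1 h.on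
  obtain ⟨c, c1, -, c2⟩ := h.ex
  obtain ⟨e, e1⟩ := h.rel.nef
  obtain ⟨c', k⟩ := nef_of h.rel.ft.des c1
  obtain ⟨v, -, hv⟩ := adj_dv hK S
  exact ⟨⟨a, b, (res_dsc hK S p.des).congr (a1 _ K hK S Γ p.des.car).2.1,
    hv Γ p.des.car ▸ (carQ_dv v).add (res_carQ hK S p.rat),
    a3 n K hK Λ S p.smp p.big h.on Γ p.des p.bdy h.z⟩,
    ⟨a, b, res_mx hK S s ▸ res_dsc hK S h.rel.ft.des, _, c, h.klt hK,
      a3g n K hK Λ S p.smp p.big h.on Γ₂ c' (neg_add_eq_sub Γ₂ _ ▸ k) h.bdy h.z2,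
      (res_nef hK S c1).congr (res_rel hK h.car S s c), c2.congr (res_rel hK h.car S s c)⟩,
    e, (res_nef hK S e1).congr (res_rel hK p.des.car S s e)⟩

theorem lc_adj (hK : FF K (n + 1)) (h : NF n Λ Γ Γ₂ s R₀ S) {Q : Pl S.κ}
    (hQ : Zr (Ws hK s R₀ S) Q) : -1 ≤ dsc n (adj n S Γ) Q :=
  let ⟨R, a, _, e⟩ := fol hK h.ov h.rel.pr.des.car h.z hQ
  e ▸ h.lc R a

theorem cf (hq : 0 < q) (hK : FF K (n + 2)) (h : NF (n + 1) Λ Γ Γ₂ s R₀ S)
    (k : Cf (n + 1) Λ Γ (Phi q) (Ov s R₀)) :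
    Cf n (res S Λ) (adj (n + 1) S Γ) (Phi q) (Zr (Ws hK s R₀ S)) := fun Q hQ z => by
  have p := h.rel.pr
  obtain ⟨c, c1, -⟩ := h.ex
  obtain ⟨c', e⟩ := nef_of h.rel.ft.des c1
  refine cf_adj hq hK p.big h.qf h.on p.des p.bdy h.z e h.bdy h.z2 hQ (h.klt hK Q) (h.lc_adj hK z)
    fun R β a b d y => k R a ((ov_iff hK).2 fun G hG => ?_)
  have g := wt_dsc h.rel.ft.des G hG
  have u : G R • β ≤ G := Pr.hart_le res' hK p.smp p.big (d.1.smul _) g.2 fun P hP => by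
    rw [Pi.smul_apply, d.2 P hP, Pl.δ]
    split_ifs with w
    · simp [w]
    · simpa using g.1 P
  have u' := res_mono hK S (d.1.smul _).car g.2.car u (by
    rw [Pi.smul_apply, d.2 S h.on, Pl.δ_ne b.symm, smul_zero, Ov.zr h.ov G hG]) Q
  rw [res_smul hK S _ d.1.car, z _ ⟨G, hG, rfl⟩] at u'
  exact le_antisymm (nonpos_of_mul_nonpos_left u' y) (g.1 R)

end NF

/-- the complement on `S` -/
theorem cpl_S (l : Lt LC n) (hq : 0 < q) : ∃ N : ℕ, 0 < N ∧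
    ∀ (K : Type) [Field K] [Algebra ℂ K] (hK : FF K (n + 1)) (Λ Γ Γ₂ : BD K) (s : Finset K)
      (R₀ S : Pl K), NF n Λ Γ Γ₂ s R₀ S → Cf n Λ Γ (Phi q) (Ov s R₀) → ∃ u : S.κ, u ≠ 0 ∧
        ∀ Q, Zr (Ws hK s R₀ S) Q → N * adj n S Γ Q ≤ Q.ord u ∧
          (Q.ord u : ℝ) ≤ N * (cn S.κ n Q + 1) := by
  cases n with
  | zero => exact ⟨1, one_pos, fun K _ _ hK _ _ _ _ _ S _ _ =>
      ⟨1, one_ne_zero, fun Q => (Bm.no_pl (Bm.ff_κ hK S) Q).elim⟩⟩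
  | succ n =>
  obtain ⟨N, N0, k⟩ := l n n.lt_succ_self q hq
  refine ⟨N, N0, fun K _ _ hK Λ Γ Γ₂ s R₀ S h cf => ?_⟩
  by_cases e : ∃ Q, Zr (Ws hK s R₀ S) Q
  · obtain ⟨Q₁, h₁⟩ := e
    obtain ⟨c, c1, c2, -⟩ := h.ex
    obtain ⟨R', r⟩ := exists_pt hK h.rel.pr.big h.rel.ft.des h.ov h.z2 c1 c2 h.bdy (h.klt hK) h₁
    obtain ⟨u, ⟨u0, u1⟩, u2⟩ := k S.κ (Bm.ff_κ hK S) _ _ _ R' (h.rel_adj hK)
      (fun Q a b => h.cf hq hK cf Q a ((r Q).1 b))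
      fun Q a => neg_le_iff_add_nonneg.1 (h.lc_adj hK ((r Q).1 a))
    exact ⟨u, u0, fun Q a => ⟨u1 Q ((r Q).2 a), u2 Q ((r Q).2 a)⟩⟩
  · exact ⟨1, one_ne_zero, fun Q a => (e ⟨Q, a⟩).elim⟩

theorem int_step {d : ℕ} (d0 : 0 < d) {b M : ℝ} {i k : ℤ} {m : ℕ} (hM : M = m) (e : d * b = i)
    (b0 : 0 ≤ b) (b1 : b ≤ 1) (h : M * b + (1 - 1 / d) * b < k + 1) :
    0 ≤ k ∧ (M + 1) * b ≤ k + 1 := by
  have d1 : (1 : ℝ) ≤ d := by exact_mod_cast d0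
  have t1 : 1 / (d : ℝ) ≤ 1 := (div_le_one (by linarith)).2 d1
  constructor
  · have : ((0 : ℤ) : ℝ) < (k + 1 : ℤ) := by
      push_cast
      have : 0 ≤ M * b := hM ▸ mul_nonneg m.cast_nonneg b0
      nlinarith
    linarith [Int.cast_lt.1 this]
  · have a : (((m + 1) * i : ℤ) : ℝ) < (d * (k + 1) + 1 : ℤ) := by
      have x := mul_lt_mul_of_pos_left h (show (0 : ℝ) < d by linarith)
      have y : (d : ℝ) * (M * b + (1 - 1 / d) * b) = (M + 1) * (d * b) - b := by field_simp; ring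
      push_cast
      rw [y, e, hM] at x
      linarith
    have a' : (((m + 1) * i : ℤ) : ℝ) ≤ (d * (k + 1) : ℤ) :=
      Int.cast_le.2 (Int.lt_add_one_iff.1 (Int.cast_lt.1 a))
    push_cast at a'
    rw [← e, ← hM] at a'
    exact le_of_mul_le_mul_left (by linarith) (show (0 : ℝ) < d by linarith)

theorem lim_le {A B : ℝ} (h : ∀ τ : ℝ, 0 < τ → τ ≤ 1 → -1 < (1 - τ) * A + τ * B) : -1 ≤ A := by
  have t : Tendsto (fun τ : ℝ => (1 - τ) * A + τ * B) (𝓝[>] 0) (𝓝 A) :=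
    (Continuous.tendsto' (by fun_prop) 0 A (by simp)).mono_left nhdsWithin_le_nhds
  exact ge_of_tendsto t (mem_of_superset (Ioc_mem_nhdsGT one_pos) fun τ a => (h τ a.1 a.2).le)

theorem adj_mix (hK : FF K (n + 1)) (hΓ : Γ ∈ Car K) (hG : G ∈ Car K) (t : ℝ) :
    adj n S ((1 - t) • Γ + t • G) = (1 - t) • adj n S Γ + t • adj n S G := by
  obtain ⟨v, -, e⟩ := adj_dv hK S
  have a := (Car K).smul_mem (1 - t) hΓ
  rw [e _ (add_mem a ((Car K).smul_mem t hG)), e _ hΓ, e _ hG, res_add_smul hK S a hG,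
    res_smul hK S _ hΓ]
  module

/-- the complement lifts -/
theorem NF.cpl (hq : 0 < q) (hK : FF K (n + 1)) (h : NF n Λ Γ Γ₂ s R₀ S)
    (cf : Cf n Λ Γ (Phi q) (Ov s R₀)) {N₀ : ℕ} (N0 : 0 < N₀) {u : S.κ} (u0 : u ≠ 0)
    (hu : ∀ Q, Zr (Ws hK s R₀ S) Q → N₀ * adj n S Γ Q ≤ Q.ord u ∧
      (Q.ord u : ℝ) ≤ N₀ * (cn S.κ n Q + 1)) : ∃ g, LcC n (3 * (2 * q * N₀)) Γ (Ov s R₀) g := by
  have p := h.rel.pr
  have cΓ := p.des.car
  have dH := h.rel.ft.des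
  obtain ⟨N, hN⟩ : ∃ N : ℕ, N = 2 * q * N₀ := ⟨_, rfl⟩
  have N1 : (0 : ℝ) < N := by rw [hN]; positivity
  have hu' : ∀ Q, Zr (Ws hK s R₀ S) Q → N * adj n S Γ Q ≤ dv (u ^ (2 * q)) Q ∧
      dv (u ^ (2 * q)) Q ≤ N * (cn S.κ n Q + 1) := fun Q a => by
    rw [hN, dv_pow, Nat.cast_mul (2 * q), mul_assoc, mul_assoc]
    exact ⟨mul_le_mul_of_nonneg_left (hu Q a).1 (Nat.cast_nonneg _),
      mul_le_mul_of_nonneg_left (hu Q a).2 (Nat.cast_nonneg _)⟩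
  obtain ⟨v, v0, hv⟩ := adj_dv hK S
  have iz := (Ba.mod.isb n K hK).2.2
  obtain ⟨ζ, hζ⟩ := iz S
  obtain ⟨y, y0, y1, y2⟩ := exists_lift hK S (div_ne_zero (pow_ne_zero (2 * q) u0)
    (pow_ne_zero N v0)) (N * (ζ + 1))
  rw [dv_div (pow_ne_zero _ u0) (pow_ne_zero N v0), dv_pow v] at y2
  have gS : Γ S = ζ + 1 := by have := h.z; simp only [dsc, Pi.sub_apply, hζ] at this; linarith
  obtain ⟨d, d0, hd⟩ := p.rat
  have d1 : (1 : ℝ) ≤ d := by exact_mod_cast d0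
  have t0 : (0 : ℝ) < 1 / d := by positivity
  have t1 : (0 : ℝ) ≤ 1 - 1 / d := sub_nonneg.2 ((div_le_one (by linarith)).2 d1)
  obtain ⟨c, c1, c2, -⟩ := h.ex
  obtain ⟨e, e1⟩ := h.rel.nef
  have cD : (N : ℝ) • Γ - dv y ∈ Car K := sub_mem ((Car K).smul_mem _ cΓ) (dv_mem_Car y)
  have L : ∀ a : ℕ, ∃ x : K, x ≠ 0 ∧ S.ord x = 0 ∧ S.rd x = 1 ∧ ∀ R, Ov s R₀ R → R ≠ S →
      -1 < dsc (n + 1) ((1 - 1 / d : ℝ) • Γ + (1 / d : ℝ) • Γ₂ + (a : ℝ) • ((N : ℝ) • Γ - dv y)) R +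
        R.ord x := fun a => by
    have w : ((1 - 1 / d + a * N) * e + 1 / d * c : ℝ) • mx s - ((1 - 1 / d : ℝ) • Γ +
        (1 / d : ℝ) • Γ₂ + (a : ℝ) • ((N : ℝ) • Γ - dv y)) = (1 / d : ℝ) • (c • mx s - Γ₂) +
        ((1 - 1 / d + a * N : ℝ) • (e • mx s - Γ) + (a : ℝ) • dv y) := by module
    have w' := (e1.smul (c := 1 - 1 / d + a * N) (by positivity)).add_prn
      ((Prn K).smul_mem a (dv_mem_Prn y))
    have cm := add_mem ((Car K).smul_mem (1 - 1 / d) cΓ) ((Car K).smul_mem (1 / d) h.car)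
    refine lift hK h.ov ?_ (w ▸ (c1.smul t0.le).add w') (w ▸ (c2.smul t0).add_nef w') fun Q hQ => ?_
    · rw [Pr.dsc_add_smul, dsc_mix, h.z, h.z2, Pi.sub_apply, Pi.smul_apply, gS, dv_apply, y1, smul_eq_mul]
      push_cast; ring
    · rw [(a4 n K hK S _ cm _ ((Car K).smul_mem _ cD)).1, res_smul hK S _ cD, Pr.dsc_add_smul,
        adj_mix hK cΓ h.car, dsc_mix, res_sub hK S ((Car K).smul_mem _ cΓ) (dv_mem_Car y), y2,
        res_smul hK S _ cΓ]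
      have a1 := (hu' Q hQ).1
      have a2 := mul_le_mul_of_nonneg_left (h.lc_adj hK hQ) t1
      have a3 := mul_lt_mul_of_pos_left (h.klt hK Q) t0
      rw [hv Γ cΓ] at a1
      simp only [Pi.add_apply, Pi.sub_apply, Pi.smul_apply, smul_eq_mul] at a1 ⊢
      nlinarith [mul_nonneg (Nat.cast_nonneg (α := ℝ) a) (sub_nonneg.2 a1)]
  obtain ⟨x₁, a0, a1, a2, a3⟩ := L 1
  obtain ⟨x₂, b0, b1, b2, b3⟩ := L 2
  have g0 := mul_ne_zero (mul_ne_zero a0 b0) (pow_ne_zero 3 y0)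
  have eg : dv (x₁ * x₂ * y ^ 3) = dv x₁ + dv x₂ + (3 : ℝ) • dv y := by
    rw [dv_mul (mul_ne_zero a0 b0) (pow_ne_zero 3 y0), dv_mul a0 b0, dv_pow, Nat.cast_ofNat]
  have rg : res S (dv (x₁ * x₂ * y ^ 3)) = (3 : ℝ) • (dv (u ^ (2 * q)) - (N : ℝ) • dv v) := by
    rw [eg, res_add_smul hK S (add_mem (dv_mem_Car _) (dv_mem_Car _)) (dv_mem_Car _),
      res_add hK S (dv_mem_Car _) (dv_mem_Car _), res_dv_unit hK S a0 a1, res_dv_unit hK S b0 b1,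
      a2, b2, dv_one, y2, add_zero, zero_add]
  have sg : dv (x₁ * x₂ * y ^ 3) S = 3 * N * Γ S := by
    rw [eg]
    simp only [Pi.add_apply, Pi.smul_apply, dv_apply, a1, b1, y1, gS, smul_eq_mul]
    push_cast; ring
  generalize x₁ * x₂ * y ^ 3 = g at g0 eg rg sg
  have lo : ∀ P, Ov s R₀ P → ((3 * N : ℝ) • Γ) P ≤ dv g P := fun P =>
    le_ov hK p.big dH (p.des.smul _) (.dv p.smp g) fun R hR o => by
      by_cases ne : R = S
      · rw [ne, sg]; rfl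
      obtain ⟨i, hi⟩ := CarZ.int hd R
      obtain ⟨j, hj⟩ := iz R
      have ph := cf R hR o
      have eb : 1 - ld (n + 1) Γ R = Γ R - j := by simp only [ld, dsc, Pi.sub_apply, hj]; ring
      rw [eb] at ph
      have st : ∀ (a : ℕ) (x : K), -1 < dsc (n + 1) ((1 - 1 / d : ℝ) • Γ + (1 / d : ℝ) • Γ₂ +
          (a : ℝ) • ((N : ℝ) • Γ - dv y)) R + R.ord x → 0 ≤ R.ord x + a * R.ord y - a * N * j ∧
            ((a * N : ℕ) + 1) * (Γ R - j) ≤ (R.ord x + a * R.ord y - a * N * j : ℤ) + 1 :=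
        fun a x k => int_step d0 rfl (i := i - d * j)
          (by rw [mul_sub, ← smul_eq_mul, ← Pi.smul_apply, hi]; push_cast; ring)
          (phi_nn hq ph) (phi_le ph) (by
            have := mul_nonpos_of_nonneg_of_nonpos t0.le (h.bdy R hR)
            rw [Pr.dsc_add_smul, dsc_mix] at k
            simp only [dsc, Pi.sub_apply, Pi.smul_apply, smul_eq_mul, hj, dv_apply] at k this
            push_cast
            linarith)
      have s1 := st 1 x₁ (a3 R o ne)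
      have s2 := st 2 x₂ (b3 R o ne)
      have := phi_lift hq ph (c := N₀) s1.1 s2.1 (by rw [← hN]; simpa using s1.2)
        (by rw [← hN]; simpa using s2.2)
      rw [← hN] at this
      rw [eg]
      simp only [Pi.add_apply, Pi.smul_apply, dv_apply, smul_eq_mul]
      push_cast at this
      linarith
  have N3 : (0 : ℝ) < 3 * N := by positivity
  have dg : ∀ P, dsc (n + 1) ((3 * N : ℝ)⁻¹ • dv g) P = cn K (n + 1) P - dv g P / (3 * N) :=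
    fun P => by rw [dsc, Pi.sub_apply, Pi.smul_apply, smul_eq_mul, inv_mul_eq_div]
  have zg : dsc (n + 1) ((3 * N : ℝ)⁻¹ • dv g) S = -1 := by
    rw [dg, sg, mul_div_cancel_left₀ _ N3.ne']; exact h.z
  have cg : (3 * N : ℝ)⁻¹ • dv g ∈ Prn K := (Prn K).smul_mem _ (dv_mem_Prn g)
  have up : ∀ R, Ov s R₀ R → -1 ≤ dsc (n + 1) ((3 * N : ℝ)⁻¹ • dv g) R := fun R o => by
    by_cases ne : R = S
    · rw [ne, zg]
    refine lim_le (B := dsc (n + 1) Γ₂ R) fun τ τ0 τ1 => ?_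
    have w : (τ * c) • mx s - ((1 - τ) • (3 * N : ℝ)⁻¹ • dv g + τ • Γ₂) - τ • (c • mx s - Γ₂) ∈
        Prn K := by
      rw [show ∀ X : BD K, (τ * c) • mx s - ((1 - τ) • X + τ • Γ₂) - τ • (c • mx s - Γ₂) =
        (τ - 1) • X from fun X => by module]
      exact (Prn K).smul_mem _ cg
    rw [← dsc_mix]
    refine inv_U hK p.big dH h.ov (by rw [dsc_mix, zg, h.z2]; ring) ((c1.smul τ0.le).congr w)
      ((c2.smul τ0).congr w) (fun P a b => ?_) (fun Q hQ => ?_) o ne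
    · have k := (le_div_iff₀' N3).2 (lo P b)
      have k' : cn K (n + 1) P - Γ P ≤ 0 := p.bdy P a
      rw [dsc_mix, dg]
      exact add_nonpos (mul_nonpos_of_nonneg_of_nonpos (sub_nonneg.2 τ1) (by linarith))
        (mul_nonpos_of_nonneg_of_nonpos τ0.le (h.bdy P a))
    · have k : -1 ≤ dsc n (adj n S ((3 * N : ℝ)⁻¹ • dv g)) Q := by
        rw [hv _ (Prn_le_Car cg), res_smul hK S _ (dv_mem_Car g), rg,
          show dv v + (3 * N : ℝ)⁻¹ • (3 : ℝ) • (dv (u ^ (2 * q)) - (N : ℝ) • dv v) =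
            (N : ℝ)⁻¹ • dv (u ^ (2 * q)) by
            rw [smul_smul, show (3 * N : ℝ)⁻¹ * 3 = (N : ℝ)⁻¹ by field_simp, smul_sub,
              inv_smul_smul₀ N1.ne', add_sub_cancel],
          dsc, Pi.sub_apply, Pi.smul_apply, smul_eq_mul, inv_mul_eq_div]
        linarith [(div_le_iff₀' N1).2 (hu' Q hQ).2]
      rw [adj_mix hK (Prn_le_Car cg) h.car, dsc_mix]
      nlinarith [h.klt hK Q, mul_le_mul_of_nonneg_left k (sub_nonneg.2 τ1)]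
  rw [← hN]
  refine ⟨g, ⟨g0, fun P o => by simpa [dv_apply] using lo P o⟩, fun P o => ?_⟩
  have := up P o
  rw [dg] at this
  rw [Nat.cast_mul, Nat.cast_ofNat]
  exact (div_le_iff₀' N3).1 (by rw [← dv_apply]; linarith)

/-- complements in the normal form -/
theorem nf_cpl (l : Lt LC n) (hq : 0 < q) : ∃ N : ℕ, 0 < N ∧ ForN n fun K _ _ =>
    ∀ (Λ Γ Γ₂ : BD K) (s : Finset K) (R₀ S : Pl K), NF n Λ Γ Γ₂ s R₀ S →
      Cf n Λ Γ (Phi q) (Ov s R₀) → ∃ g, LcC n N Γ (Ov s R₀) g :=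
  let ⟨N, N0, k⟩ := cpl_S l hq
  ⟨_, by positivity, fun K _ _ hK Λ Γ Γ₂ s R₀ S h cf =>
    let ⟨_, u0, hu⟩ := k K hK Λ Γ Γ₂ s R₀ S h cf
    h.cpl hq hK cf N0 u0 hu⟩

end Vale.Agent.P283B.Lcb
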